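import Mathlib

/-!
# Colourings, chains and a second moment bound
-/

namespace Vale.Agent.P165Hyp

variable {ι Q : Type*} [Fintype ι] [DecidableEq ι] [Fintype Q] [DecidableEq Q]

/-- The colourings vanishing on `J`. -/
def zeroOn (P : ℕ) [NeZero P] (J : Finset ι) : Finset (ι → Fin P) :=
  Fintype.piFinset fun j => if j ∈ J then {0} else Finset.univ

theorem mem_zeroOn {P : ℕ} [NeZero P] {J : Finset ι} {c : ι → Fin P} :
    c ∈ zeroOn P J ↔ ∀ j ∈ J, c j = 0 := by
  simp only [zeroOn, Fintype.mem_piFinset]
  constructor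
  · intro h j hj
    simpa [hj] using h j
  · intro h j
    split_ifs with hj
    · simp [h j hj]
    · simp

theorem card_zeroOn (P : ℕ) [NeZero P] (J : Finset ι) :
    (zeroOn P J).card * P ^ J.card = P ^ Fintype.card ι := by
  have h : ∀ j, ((if j ∈ J then {0} else Finset.univ : Finset (Fin P))).card =
      if j ∈ J then 1 else P := fun j => by split_ifs <;> simp
  rw [zeroOn, Fintype.card_piFinset, Finset.prod_congr rfl fun j _ => h j,
    ← Finset.prod_const, ← Finset.card_univ, ← Finset.prod_const,
    ← Finset.univ_inter J, ← Finset.prod_ite_mem, Finset.univ_inter, ← Finset.prod_mul_distrib]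
  exact Finset.prod_congr rfl fun j _ => by split_ifs <;> simp

omit [DecidableEq Q] in
/-- Few colourings vanish on none of many disjoint small sets. -/
theorem card_none_zero (P : ℕ) [NeZero P] (J : Q → Finset ι) (d : ℕ) (hJ : ∀ q, (J q).card = d)
    (hdis : ∀ q q', q ≠ q' → Disjoint (J q) (J q')) :
    (Finset.univ.filter fun c : ι → Fin P => ∀ q, ∃ j ∈ J q, c j ≠ 0).card * Fintype.card Q ≤
      P ^ Fintype.card ι * P ^ d := by
  classical
  set n : ℝ := (P : ℝ) ^ Fintype.card ι
  set b : ℝ := (P : ℝ) ^ d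
  have hb : 0 < b := pow_pos (Nat.cast_pos.2 (Nat.pos_of_ne_zero (NeZero.ne P))) _
  have hn : 0 < n := pow_pos (Nat.cast_pos.2 (Nat.pos_of_ne_zero (NeZero.ne P))) _
  set f : Q → (ι → Fin P) → ℝ := fun q c => if c ∈ zeroOn P (J q) then 1 else 0
  set m : ℝ := (Fintype.card Q : ℝ)
  set μ : ℝ := m / b
  have h1 : ∀ q, ∑ c, f q c = n / b := by
    intro q
    rw [eq_div_iff hb.ne', Finset.sum_boole]
    simp only [n, b, Finset.filter_univ_mem]
    rw [← hJ q]
    exact_mod_cast card_zeroOn P (J q)
  have h2 : ∀ q q', ∑ c, f q c * f q' c ≤ n / (b * b) + if q = q' then n / b else 0 := by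
    intro q q'
    by_cases h : q = q'
    · subst h
      rw [if_pos rfl]
      have hsq : ∀ c, f q c * f q c = f q c := fun c => by simp only [f]; split_ifs <;> simp
      rw [Finset.sum_congr rfl fun c _ => hsq c, h1]
      exact le_add_of_nonneg_left (by positivity)
    · rw [if_neg h, add_zero, le_div_iff₀ (by positivity)]
      have e : ∀ c, f q c * f q' c = if c ∈ zeroOn P (J q ∪ J q') then 1 else 0 := fun c => by
        simp only [f, mem_zeroOn, Finset.mem_union, or_imp, forall_and]
        split_ifs <;> simp_all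
      rw [Finset.sum_congr rfl fun c _ => e c, Finset.sum_boole]
      simp only [n, b, Finset.filter_univ_mem, ← pow_add]
      rw [show d + d = (J q ∪ J q').card by
        rw [Finset.card_union_of_disjoint (hdis q q' h), hJ, hJ]]
      exact le_of_eq (by exact_mod_cast card_zeroOn P (J q ∪ J q'))
  set X : (ι → Fin P) → ℝ := fun c => ∑ q, f q c
  have hX : ∑ c, X c = μ * n := by
    rw [Finset.sum_comm, Finset.sum_congr rfl fun q _ => h1 q, Finset.sum_const, Finset.card_univ,
      nsmul_eq_mul]
    simp only [μ, m]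
    ring
  have hX2 : ∑ c, X c ^ 2 ≤ μ * n + μ ^ 2 * n := by
    simp only [X, pow_two, Finset.sum_mul_sum]
    rw [Finset.sum_comm]
    refine le_trans (Finset.sum_le_sum fun q _ => ?_ : _ ≤ ∑ q : Q, (m * (n / (b * b)) + n / b))
      (le_of_eq ?_)
    · rw [Finset.sum_comm]
      refine (Finset.sum_le_sum fun q' _ => h2 q q').trans (le_of_eq ?_)
      rw [Finset.sum_add_distrib, Finset.sum_const, Finset.card_univ, nsmul_eq_mul,
        Finset.sum_ite_eq, if_pos (Finset.mem_univ q)]
    · rw [Finset.sum_const, Finset.card_univ, nsmul_eq_mul]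
      simp only [μ, m]
      field_simp
      ring
  set F := Finset.univ.filter fun c : ι → Fin P => ∀ q, ∃ j ∈ J q, c j ≠ 0
  have hvar : ∑ c, (X c - μ) ^ 2 ≤ μ * n := by
    have e : ∀ c, (X c - μ) ^ 2 = X c ^ 2 - 2 * μ * X c + μ ^ 2 := fun c => by ring
    rw [Finset.sum_congr rfl fun c _ => e c, Finset.sum_add_distrib, Finset.sum_sub_distrib,
      ← Finset.mul_sum, hX, Finset.sum_const, Finset.card_univ, nsmul_eq_mul, Fintype.card_fun,
      Fintype.card_fin]
    simp only [n] at hX2 ⊢
    push_cast
    nlinarith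
  have hF : (F.card : ℝ) * μ ^ 2 ≤ μ * n := by
    refine le_trans ?_ hvar
    rw [← nsmul_eq_mul, ← Finset.sum_const]
    refine (Finset.sum_le_sum fun c hc => ?_).trans
      (Finset.sum_le_sum_of_subset_of_nonneg (Finset.subset_univ F) fun c _ _ => sq_nonneg _)
    have h0 : X c = 0 := Finset.sum_eq_zero fun q _ => by
      refine if_neg fun hz => ?_
      obtain ⟨j, hj, hne⟩ := (Finset.mem_filter.1 hc).2 q
      exact hne (mem_zeroOn.1 hz j hj)
    rw [h0]; simp
  rcases Nat.eq_zero_or_pos (Fintype.card Q) with h0 | h0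
  · simp [h0]
  have hμ : 0 < μ := div_pos (Nat.cast_pos.2 h0) hb
  have h3 : (F.card : ℝ) * μ ≤ n := le_of_mul_le_mul_left (by linarith) hμ
  rw [mul_div_assoc', div_le_iff₀ hb] at h3
  simp only [m, n, b] at h3
  exact_mod_cast h3

/-- A colouring of a graph of bounded degree on a finite set. -/
theorem exists_colouring {α : Type*} (R : α → α → Prop) [DecidableRel R]
    (hsymm : ∀ u v, R u v → R v u) (B : ℕ) (V : Finset α)
    (hdeg : ∀ v ∈ V, (V.filter fun u => R v u).card ≤ B) :
    ∃ col : α → Fin (B + 1), ∀ u ∈ V, ∀ v ∈ V, R u v → u ≠ v → col u ≠ col v := by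
  classical
  induction V using Finset.induction_on with
  | empty => exact ⟨fun _ => 0, by simp⟩
  | @insert a V ha ih =>
    obtain ⟨col, hcol⟩ := ih fun v hv => (Finset.card_le_card (Finset.filter_subset_filter _
      (Finset.subset_insert _ _))).trans (hdeg v (Finset.mem_insert_of_mem hv))
    set used := ((insert a V).filter fun u => R a u).image col
    have hu : used.card < Fintype.card (Fin (B + 1)) := by
      rw [Fintype.card_fin]
      exact Nat.lt_succ_of_le (Finset.card_image_le.trans (hdeg a (Finset.mem_insert_self _ _)))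
    obtain ⟨j, hj⟩ : ∃ j, j ∉ used := by
      by_contra h
      push Not at h
      rw [Finset.eq_univ_of_forall h, Finset.card_univ] at hu
      exact lt_irrefl _ hu
    refine ⟨Function.update col a j, fun u hu' v hv hr hne => ?_⟩
    rcases Finset.mem_insert.1 hu' with rfl | hu'' <;> rcases Finset.mem_insert.1 hv with rfl | hv'
    · exact absurd rfl hne
    · rw [Function.update_self, Function.update_of_ne hne.symm]
      exact fun h => hj (Finset.mem_image.2 ⟨v, Finset.mem_filter.2 ⟨hv, hr⟩, h.symm⟩)
    · rw [Function.update_self, Function.update_of_ne hne]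
      exact fun h => hj (Finset.mem_image.2 ⟨u, Finset.mem_filter.2 ⟨hu', hsymm _ _ hr⟩, h⟩)
    · rw [Function.update_of_ne (fun h : u = a => ha (h ▸ hu'')),
        Function.update_of_ne (fun h : v = a => ha (h ▸ hv'))]
      exact hcol u hu'' v hv' hr hne

/-- Along levels where the count halves there are logarithmically many elements. -/
theorem two_pow_card_le {α : Type*} (lev cnt : α → ℕ) :
    ∀ (S : Finset α) (M : ℕ), 1 ≤ M → Set.InjOn lev S → (∀ u ∈ S, cnt u ≤ M) →
      (∀ u ∈ S, ∃ m, 1 ≤ m ∧ 2 * m ≤ cnt u ∧ ∀ v ∈ S, lev u < lev v → cnt v ≤ m) →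
      2 ^ S.card ≤ M := by
  classical
  intro S
  induction S using Finset.strongInduction with
  | _ S ih =>
    intro M hM hinj hle hm
    rcases S.eq_empty_or_nonempty with rfl | hne
    · simpa using hM
    obtain ⟨u, hu, humin⟩ := Finset.exists_min_image S lev hne
    obtain ⟨m, hm1, hm2, hm3⟩ := hm u hu
    have h := ih (S.erase u) (Finset.erase_ssubset hu) m hm1
      (hinj.mono (Finset.coe_subset.2 (Finset.erase_subset _ _)))
      (fun v hv => hm3 v (Finset.mem_of_mem_erase hv) (lt_of_le_of_ne
        (humin v (Finset.mem_of_mem_erase hv)) fun he => Finset.ne_of_mem_erase hv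
          (hinj (Finset.mem_of_mem_erase hv) hu he.symm)))
      fun v hv => by
        obtain ⟨m', a, b, c⟩ := hm v (Finset.mem_of_mem_erase hv)
        exact ⟨m', a, b, fun w hw => c w (Finset.mem_of_mem_erase hw)⟩
    rw [← Finset.card_erase_add_one hu, pow_succ]
    calc 2 ^ (S.erase u).card * 2 ≤ m * 2 := Nat.mul_le_mul_right _ h
      _ ≤ M := by linarith [hle u hu]

end Vale.Agent.P165Hyp
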