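import Vale.Agent.P165Hyp.Words
import Vale.Agent.P165Hyp.Count

/-!
# Every finite set has little weight
-/

namespace Vale.Agent.P165Hyp

variable {H : Type*} [Group H] {d : ℕ} {Y : Sys H d} (κ : Kit Y)

/-- What is used of the weight. -/
structure Weight (w : H → ℝ) (c : ℝ) : Prop where
  nonneg : ∀ x, 0 ≤ w x
  mul_le : ∀ x y, w x * w y ≤ w (x * y)
  gen : ∀ a ∈ κ.P, c ≤ w a
  code : ∀ E : Finset H, (∀ l l' : List H, (∀ x ∈ l, x ∈ E) → (∀ x ∈ l', x ∈ E) →
    l.length = l'.length → l.prod = l'.prod → l = l') → ∑ x ∈ E, w x ≤ 1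

variable {κ}

theorem Weight.mul_list {w : H → ℝ} {c : ℝ} (hw : Weight κ w c) (hc : 0 ≤ c) :
    ∀ (l : List H) (x : H), (∀ a ∈ l, a ∈ κ.P) → w x * c ^ l.length ≤ w (x * l.prod)
  | [], x, _ => by simp
  | a :: l, x, h => by
    have h1 := hw.mul_list hc l (x * a) fun b hb => h b (List.mem_cons_of_mem _ hb)
    rw [mul_assoc] at h1
    rw [List.prod_cons, List.length_cons, pow_succ']
    refine le_trans ?_ h1
    rw [← mul_assoc]
    exact mul_le_mul_of_nonneg_right ((mul_le_mul_of_nonneg_left (hw.gen a (h a (by simp)))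
      (hw.nonneg x)).trans (hw.mul_le x _)) (pow_nonneg hc _)

/-- The margin of a shadow. -/
def C0 (κ : Kit Y) : ℕ := κ.T + 5 * Y.δ

theorem C0_eq : (C0 κ : ℤ) = κ.T2 + 3 * Y.δ := by simp only [C0, Kit.T2]; push_cast; ring

open Classical in
/-- The elements in the shadow of a point. -/
noncomputable def cone (Y : Sys H d) (W : Finset H) (i : Fin d) (v : Y.X i) (c : ℕ) : Finset H :=
  W.filter fun x => 2 * (Y.dX i (Y.o i) v : ℤ) - c ≤ Y.gp i v (Y.pt i x)

theorem mem_cone {W : Finset H} {i : Fin d} {g x : H} {c : ℕ} :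
    x ∈ cone Y W i (Y.pt i g) c ↔ x ∈ W ∧ 2 * (Y.ln i g : ℤ) - c ≤ Y.gh i g x := by
  simp only [cone, Finset.mem_filter, Sys.gh, Sys.ln]

/-- A pad leading away from the heavy directions in every factor. -/
theorem exists_light (W : Finset H) {z : H} (hz : κ.Std κ.c1 z) :
    ∃ p ∈ κ.P, ∀ i, 2 * (cone Y W i (Y.pt i (z * p)) (C0 κ + 2 * Y.δ)).card ≤
      (cone Y W i (Y.pt i z) (C0 κ)).card := by
  classical
  have hT := T2_le κ
  set f := fun p i => (cone Y W i (Y.pt i (z * p)) (C0 κ + 2 * Y.δ)).card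
  by_contra hno
  push Not at hno
  set bad := fun i => κ.P.filter fun p => (cone Y W i (Y.pt i z) (C0 κ)).card < 2 * f p i
  have h1 : κ.P ⊆ (Finset.univ : Finset (Fin d)).biUnion bad := fun p hp => by
    obtain ⟨i, hi⟩ := hno p hp
    exact Finset.mem_biUnion.2 ⟨i, Finset.mem_univ i, Finset.mem_filter.2 ⟨hp, hi⟩⟩
  have h2 := (Finset.card_le_card h1).trans (Finset.card_biUnion_le.trans
    (Finset.sum_le_card_nsmul _ _ 1 fun i _ => Finset.card_le_one.2 fun a ha b hb => by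
      simp only [bad, Finset.mem_filter] at ha hb
      by_contra hne
      have hsub : ∀ p ∈ κ.P, cone Y W i (Y.pt i (z * p)) (C0 κ + 2 * Y.δ) ⊆
          cone Y W i (Y.pt i z) (C0 κ) := by
        intro p hp x hx
        rw [mem_cone] at hx ⊢
        obtain ⟨-, -, e1, e2, -, -⟩ := ext_facts κ i hz hp (l := [p]) (by simp) (by simpa)
        have e3 := gh_four Y i z (z * p) x
        have := hx.2
        have := C0_eq (κ := κ)
        refine ⟨hx.1, ?_⟩
        push_cast at *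
        simp only [min_def] at e3
        split_ifs at e3 <;> omega
      have hdis : Disjoint (cone Y W i (Y.pt i (z * a)) (C0 κ + 2 * Y.δ))
          (cone Y W i (Y.pt i (z * b)) (C0 κ + 2 * Y.δ)) := by
        rw [Finset.disjoint_left]
        intro x hxa hxb
        rw [mem_cone] at hxa hxb
        obtain ⟨-, -, -, e1, -, -⟩ := ext_facts κ i hz ha.1 (l := [a]) (by simp) (by simpa using ha.1)
        obtain ⟨-, -, -, e2, -, -⟩ := ext_facts κ i hz hb.1 (l := [b]) (by simp) (by simpa using hb.1)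
        have e3 := gh_mul_mul_le Y i z a b
        have e4 := (κ.sep a ha.1 b hb.1 hne i).1
        have e5 := gh_four Y i (z * a) x (z * b)
        rw [gh_comm Y i x (z * b)] at e5
        have := hxa.2
        have := hxb.2
        have := C0_eq (κ := κ)
        have hbig := κ.big
        simp only [Kit.T2] at *
        push_cast at *
        simp only [min_def] at e5
        split_ifs at e5 <;> omega
      have h3 := Finset.card_le_card (Finset.union_subset (hsub a ha.1) (hsub b hb.1))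
      rw [Finset.card_union_of_disjoint hdis] at h3
      simp only [f] at ha hb
      omega))
  rw [Finset.card_univ, Fintype.card_fin, smul_eq_mul, mul_one] at h2
  have := κ.card
  omega

/-- A thinned set: well separated nodes in every factor. -/
structure Thin (Y : Sys H d) (κ : Kit Y) (W : Finset H) (Q : ℕ) : Prop where
  std : ∀ z ∈ W, κ.Std κ.c1 z
  tuple : ∀ z ∈ W, ∀ x ∈ W, (∀ i, Y.pt i z = Y.pt i x) → z = x
  node : ∀ z ∈ W, ∀ x ∈ W, ∀ i, Y.ln i z = Y.ln i x →
    Y.dX i (Y.pt i z) (Y.pt i x) ≤ C0 κ + Y.δ → Y.pt i z = Y.pt i x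
  level : ∀ z ∈ W, ∀ x ∈ W, ∀ i, Y.ln i z < Y.ln i x → Y.ln i z + Q ≤ Y.ln i x

open Classical in
/-- The nodes below `x` from which `x` is seen in the chosen light direction. -/
noncomputable def nodes (κ : Kit Y) (W : Finset H) (p : H → H) (i : Fin d) (x : H) :
    Finset (Y.X i) :=
  (W.filter fun z => Y.ln i z < Y.ln i x ∧ x ∈ cone Y W i (Y.pt i z) (C0 κ) ∧
    x ∈ cone Y W i (Y.pt i (z * p z)) (C0 κ)).image (Y.pt i)

theorem card_nodes_le {W : Finset H} {Q Mx : ℕ} (hW : Thin Y κ W Q) {p : H → H}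
    (hp : ∀ z ∈ W, p z ∈ κ.P ∧ ∀ i, 2 * (cone Y W i (Y.pt i (z * p z)) (C0 κ + 2 * Y.δ)).card ≤
      (cone Y W i (Y.pt i z) (C0 κ)).card)
    (hMx : ∀ a ∈ κ.P, ∀ i, Y.ln i a ≤ Mx) (hQ : Mx ≤ Q) (i : Fin d) {x : H} (hx : x ∈ W) :
    (nodes κ W p i x).card ≤ Nat.log 2 W.card := by
  classical
  refine Nat.le_log_of_pow_le one_lt_two (two_pow_card_le (fun u => Y.dX i (Y.o i) u)
    (fun u => (cone Y W i u (C0 κ)).card) _ _ (Finset.card_pos.2 ⟨x, hx⟩) ?_
    (fun u _ => Finset.card_le_card (Finset.filter_subset _ _)) ?_)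
  · intro u hu v hv he
    obtain ⟨z, hz, rfl⟩ := Finset.mem_image.1 hu
    obtain ⟨z', hz', rfl⟩ := Finset.mem_image.1 hv
    rw [Finset.mem_filter] at hz hz'
    refine hW.node z hz.1 z' hz'.1 i he ?_
    have h1 := (mem_cone.1 hz.2.2.1).2
    have h2 := (mem_cone.1 hz'.2.2.1).2
    have h := near Y i (p := Y.pt i z) (q := Y.pt i z') (z := Y.pt i x) (c := (C0 κ : ℤ))
      (a := Y.ln i z) le_rfl (le_of_eq he.symm) h1 (by
        simp only [Sys.ln] at he ⊢ h2
        rw [show Y.dX i (Y.o i) (Y.pt i z) = Y.dX i (Y.o i) (Y.pt i z') from he]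
        exact h2)
    omega
  intro u hu
  obtain ⟨z, hz, rfl⟩ := Finset.mem_image.1 hu
  rw [Finset.mem_filter] at hz
  refine ⟨(cone Y W i (Y.pt i (z * p z)) (C0 κ + 2 * Y.δ)).card, Finset.card_pos.2 ⟨x, ?_⟩,
    (hp z hz.1).2 i, ?_⟩
  · have := mem_cone.1 hz.2.2.2
    rw [mem_cone]
    exact ⟨this.1, by push_cast; omega⟩
  intro v hv hlt
  obtain ⟨z', hz', rfl⟩ := Finset.mem_image.1 hv
  rw [Finset.mem_filter] at hz'
  have hlev := hW.level z hz.1 z' hz'.1 i hlt
  have hlen := ln_mul_le Y i z (p z)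
  have hM := hMx _ (hp z hz.1).1 i
  refine Finset.card_le_card fun y hy => ?_
  rw [mem_cone] at hy ⊢
  have h1 := (mem_cone.1 hz.2.2.2).2
  have h2 := (mem_cone.1 hz'.2.2.1).2
  have h3 := gh_four Y i (z * p z) x z'
  have h4 := gh_four Y i (z * p z) z' y
  rw [gh_comm Y i x z'] at h3
  have := hy.2
  refine ⟨hy.1, ?_⟩
  push_cast
  simp only [min_def] at h3 h4
  split_ifs at h3 h4 <;> omega

open Classical in
/-- Where an endpoint killing `x` may lie. -/
noncomputable def cand (κ : Kit Y) (W : Finset H) (p : H → H) (Sp : ℕ) (i : Fin d) (x : H) :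
    Finset (Y.X i) :=
  (nodes κ W p i x).biUnion fun u =>
    (Finset.Icc (Y.dX i (Y.o i) u - (C0 κ + Y.δ)) (Y.dX i (Y.o i) u + Sp)).biUnion fun a =>
      (Y.ball i (Y.gam i (Y.pt i x) a) (C0 κ + Y.δ)).choose

theorem card_cand_le (W : Finset H) (p : H → H) (Sp : ℕ) (i : Fin d) (x : H) :
    (cand κ W p Sp i x).card ≤
      (nodes κ W p i x).card * ((Sp + (C0 κ + Y.δ) + 1) * Y.D ^ (C0 κ + Y.δ)) := by
  classical
  refine Finset.card_biUnion_le.trans ((Finset.sum_le_card_nsmul _ _ _ fun u _ => ?_).trans_eq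
    (smul_eq_mul _ _))
  refine Finset.card_biUnion_le.trans ((Finset.sum_le_card_nsmul _ _ _ fun a _ =>
    (Y.ball i _ _).choose_spec.1).trans ?_)
  rw [smul_eq_mul, Nat.card_Icc]
  exact Nat.mul_le_mul_right _ (by omega)

/-- An endpoint continuing into `x` is a candidate. -/
theorem mem_cand {W : Finset H} {Q Sp : ℕ} (hW : Thin Y κ W Q) (hQ : Sp ≤ Q) {p : H → H}
    (i : Fin d) {z x : H} (hz : z ∈ W) (hx : x ∈ W) (hp : p z ∈ κ.P) {l : List H} (hne : l ≠ [])
    (hl : ∀ a ∈ l, a ∈ κ.P) (hsp : Y.ln i (p z * l.prod) ≤ Sp) (hlt : Y.ln i z < Y.ln i x)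
    (hsh : 2 * (Y.ln i (z * p z * l.prod) : ℤ) - (κ.T2 + 2 * Y.δ) ≤
      Y.gh i (z * p z * l.prod) x) :
    Y.pt i (z * p z * l.prod) ∈ cand κ W p Sp i x := by
  classical
  obtain ⟨f1, f2, -, -, f5, f6⟩ := ext_facts κ i (hW.std z hz) hp hne hl
  have hC := C0_eq (κ := κ)
  refine Finset.mem_biUnion.2 ⟨Y.pt i z, Finset.mem_image.2 ⟨z, Finset.mem_filter.2
    ⟨hz, hlt, mem_cone.2 ⟨hx, ?_⟩, mem_cone.2 ⟨hx, ?_⟩⟩, rfl⟩, ?_⟩
  · have := gh_four Y i z (z * p z * l.prod) x
    simp only [min_def] at this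
    split_ifs at this <;> omega
  · have := gh_four Y i (z * p z) (z * p z * l.prod) x
    simp only [min_def] at this
    split_ifs at this <;> omega
  obtain ⟨a, ha, hd⟩ := near_gam Y i (c := C0 κ) (e := Y.pt i (z * p z * l.prod)) (x := Y.pt i x)
    (by simp only [Sys.gh, Sys.ln] at hsh hC ⊢; omega)
  have htop : Y.ln i (z * p z * l.prod) ≤ Y.ln i z + Sp := by
    rw [mul_assoc]; exact (ln_mul_le Y i _ _).trans (Nat.add_le_add_left hsp _)
  refine Finset.mem_biUnion.2 ⟨a, Finset.mem_Icc.2 ⟨?_, ?_⟩, (Y.ball i _ _).choose_spec.2 _ hd⟩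
  · have hlev := hW.level z hz x hx i hlt
    have hal : a ≤ Y.dX i (Y.o i) (Y.pt i x) := by simp only [Sys.ln] at htop hlev ha; omega
    obtain ⟨g1, -⟩ := gam_spec Y i hal
    have := Y.dX_tri i (Y.o i) (Y.gam i (Y.pt i x) a) (Y.pt i (z * p z * l.prod))
    simp only [Sys.ln] at f6
    omega
  · simp only [Sys.ln] at htop
    omega

/-- Incomparability of two continued elements. -/
theorem incomp_ext {W : Finset H} {Q : ℕ} (hW : Thin Y κ W Q) {z x pz px : H} (hz : z ∈ W)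
    (hx : x ∈ W) (hpz : pz ∈ κ.P) (hpx : px ∈ κ.P) {l l' : List H} (hl0 : l ≠ []) (hl0' : l' ≠ [])
    (hl : ∀ a ∈ l, a ∈ κ.P) (hl' : ∀ a ∈ l', a ∈ κ.P) (i : Fin d)
    (hne : Y.pt i z ≠ Y.pt i x) (hle : Y.ln i z ≤ Y.ln i x)
    (hQ : Y.ln i (pz * l.prod) ≤ Q)
    (hkill : Y.ln i z < Y.ln i x → Y.gh i (z * pz * l.prod) x <
      2 * (Y.ln i (z * pz * l.prod) : ℤ) - (κ.T2 + 2 * Y.δ)) :
    Incomp Y (κ.T2 + Y.δ) (z * pz * l.prod) (x * px * l'.prod) := by
  refine ⟨i, ?_⟩
  obtain ⟨f1, -, -, -, -, f6⟩ := ext_facts κ i (hW.std z hz) hpz hl0 hl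
  obtain ⟨g1, -, -, -, -, g6⟩ := ext_facts κ i (hW.std x hx) hpx hl0' hl'
  have hC := C0_eq (κ := κ)
  by_contra hnot
  rw [not_lt] at hnot
  set e := z * pz * l.prod
  set e' := x * px * l'.prod
  rcases hle.lt_or_eq with hlt | heq
  · have hlev := hW.level z hz x hx i hlt
    have h1 := hkill hlt
    have h2 : Y.ln i e ≤ Y.ln i z + Y.ln i (pz * l.prod) := by
      simp only [e, mul_assoc]; exact ln_mul_le Y i _ _
    have h3 := gh_four Y i e e' x
    rw [gh_comm Y i e' x] at h3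
    simp only [min_def] at hnot h3
    split_ifs at hnot h3 <;> omega
  · refine hne (hW.node z hz x hx i heq ?_)
    have h3 := gh_four Y i z e e'
    have h4 := gh_four Y i z e' x
    rw [gh_comm Y i e' x] at h4
    have h5 : Y.gh i z x = (Y.ln i z : ℤ) + Y.ln i x - Y.dX i (Y.pt i z) (Y.pt i x) := rfl
    simp only [min_def] at hnot h3 h4
    split_ifs at hnot h3 h4 <;> omega

/-- The weight of a thinned set. -/
theorem thin_weight_le (hd : 0 < d) {W : Finset H} {Q k s Mx : ℕ} (hW : Thin Y κ W Q)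
    (hMx : ∀ a ∈ κ.P, ∀ i, Y.ln i a ≤ Mx) (hk : 0 < k) (hQ : (k + 1) * Mx ≤ Q)
    (hfail : 4 * (2 ^ s) ^ d ≤ 2 ^ k)
    (hkill : 4 * (d * (Nat.log 2 W.card *
      (((k + 1) * Mx + (C0 κ + Y.δ) + 1) * Y.D ^ (C0 κ + Y.δ)))) ≤ 2 ^ s)
    {w : H → ℝ} {c : ℝ} (hc : 0 < c) (hw : Weight κ w c) :
    ∑ x ∈ W, w x ≤ 2 * c⁻¹ ^ (k + 1) := by
  classical
  obtain ⟨a0, ha0, a1, ha1, h01⟩ := Finset.one_lt_card.1 (lt_of_le_of_lt hd κ.card)
  set wd : (Fin k → Bool) → List H := fun q => List.ofFn fun j => if q j then a1 else a0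
  have hwd : ∀ q, ∀ a ∈ wd q, a ∈ κ.P := fun q a ha => by
    obtain ⟨j, rfl⟩ := List.mem_ofFn.1 ha
    split_ifs <;> assumption
  have hwlen : ∀ q, (wd q).length = k := fun q => by simp [wd]
  have hwne : ∀ q, wd q ≠ [] := fun q => List.ne_nil_of_length_pos (by rw [hwlen]; exact hk)
  have hwinj : Function.Injective wd := fun q q' h => by
    funext j
    have := congrFun (List.ofFn_injective h) j
    revert this
    cases q j <;> cases q' j <;> simp [h01, h01.symm]
  have hsel : ∀ z, ∃ p, z ∈ W → p ∈ κ.P ∧ ∀ i,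
      2 * (cone Y W i (Y.pt i (z * p)) (C0 κ + 2 * Y.δ)).card ≤
        (cone Y W i (Y.pt i z) (C0 κ)).card := fun z => by
    by_cases hz : z ∈ W
    · obtain ⟨p, hp, h⟩ := exists_light W (hW.std z hz)
      exact ⟨p, fun _ => ⟨hp, h⟩⟩
    · exact ⟨1, fun h => absurd h hz⟩
  choose p hp using hsel
  set Sp := (k + 1) * Mx
  have hsp : ∀ z ∈ W, ∀ q i, Y.ln i (p z * (wd q).prod) ≤ Sp := fun z hz q i => by
    have := ln_word_le κ i Mx (fun a ha => hMx a ha i) (p z :: wd q)
      (by intro a ha; rcases List.mem_cons.1 ha with rfl | h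
          exacts [(hp z hz).1, hwd q a h])
    rwa [List.prod_cons, List.length_cons, hwlen] at this
  set ext : H → (Fin k → Bool) → H := fun z q => z * p z * (wd q).prod
  set ι0 : Finset (Σ i, Y.X i) := (Finset.univ : Finset (Fin d)).biUnion fun i =>
    (W ×ˢ (Finset.univ : Finset (Fin k → Bool))).image fun zq => ⟨i, Y.pt i (ext zq.1 zq.2)⟩
  have hmem : ∀ z ∈ W, ∀ q i, (⟨i, Y.pt i (ext z q)⟩ : Σ i, Y.X i) ∈ ι0 := fun z hz q i =>
    Finset.mem_biUnion.2 ⟨i, Finset.mem_univ i, Finset.mem_image.2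
      ⟨(z, q), Finset.mem_product.2 ⟨hz, Finset.mem_univ q⟩, rfl⟩⟩
  set P := 2 ^ s
  have : NeZero P := ⟨(pow_pos two_pos s).ne'⟩
  set J : ↥W → (Fin k → Bool) → Finset ↥ι0 := fun z q =>
    (Finset.univ : Finset (Fin d)).image fun i => ⟨_, hmem z.1 z.2 q i⟩
  have hJ : ∀ z q, (J z q).card = d := fun z q => by
    rw [Finset.card_image_of_injective, Finset.card_univ, Fintype.card_fin]
    intro i i' h
    exact (Sigma.mk.inj_iff.1 (Subtype.ext_iff.1 h)).1
  have hJd : ∀ z q q', q ≠ q' → Disjoint (J z q) (J z q') := fun z q q' hqq => by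
    rw [Finset.disjoint_left]
    intro j hj hj'
    obtain ⟨i, -, rfl⟩ := Finset.mem_image.1 hj
    obtain ⟨i', -, h⟩ := Finset.mem_image.1 hj'
    obtain ⟨rfl, h⟩ := Sigma.mk.inj_iff.1 (Subtype.ext_iff.1 h)
    have h0 := word_ne κ i' (wd q) (wd q') (hwd q) (hwd q') (by rw [hwlen, hwlen])
      fun e => hqq (hwinj e)
    rw [show (wd q).prod⁻¹ * (wd q').prod = (ext z.1 q)⁻¹ * ext z.1 q' by simp only [ext]; group,
      ← dX_pt] at h0
    have h' : Y.pt i' (ext z.1 q') = Y.pt i' (ext z.1 q) := eq_of_heq h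
    rw [h', Y.dX_self] at h0
    exact lt_irrefl _ h0
  set fail : (↥ι0 → Fin P) → ↥W → Prop := fun col z => ∀ q, ∃ j ∈ J z q, col j ≠ 0
  set killed : (↥ι0 → Fin P) → ↥W → Prop := fun col x =>
    ∃ j : ↥ι0, j.1.2 ∈ cand κ W p Sp j.1.1 x.1 ∧ col j = 0
  set n : ℕ := P ^ Fintype.card ↥ι0
  have hn : (Fintype.card (↥ι0 → Fin P)) = n := by rw [Fintype.card_fun, Fintype.card_fin]
  have hf : ∀ z, 4 * (Finset.univ.filter fun col => fail col z).card ≤ n := fun z => by
    have h := card_none_zero P (J z) d (hJ z) (hJd z)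
    rw [Fintype.card_fun, Fintype.card_bool, Fintype.card_fin] at h
    refine Nat.le_of_mul_le_mul_right ?_ (pow_pos two_pos k)
    calc 4 * (Finset.univ.filter fun col => fail col z).card * 2 ^ k
        = 4 * ((Finset.univ.filter fun col => fail col z).card * 2 ^ k) := by ring
      _ ≤ 4 * (n * P ^ d) := Nat.mul_le_mul_left _ h
      _ = n * (4 * P ^ d) := by ring
      _ ≤ n * 2 ^ k := Nat.mul_le_mul_left _ hfail
  have hkl : ∀ x, 4 * (Finset.univ.filter fun col => killed col x).card ≤ n := fun x => by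
    set Cd := (Finset.univ : Finset ↥ι0).filter fun j => j.1.2 ∈ cand κ W p Sp j.1.1 x.1
    have h1 : (Finset.univ.filter fun col => killed col x) ⊆
        Cd.biUnion fun j => zeroOn P {j} := fun col hcol => by
      obtain ⟨j, hj, h0⟩ := (Finset.mem_filter.1 hcol).2
      exact Finset.mem_biUnion.2 ⟨j, Finset.mem_filter.2 ⟨Finset.mem_univ j, hj⟩,
        mem_zeroOn.2 fun j' hj' => by rw [Finset.mem_singleton.1 hj']; exact h0⟩
    have h2 : Cd.card ≤ d * (Nat.log 2 W.card *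
        ((Sp + (C0 κ + Y.δ) + 1) * Y.D ^ (C0 κ + Y.δ))) := by
      refine (Finset.card_le_card_of_injOn (t := (Finset.univ : Finset (Fin d)).sigma
        fun i => cand κ W p Sp i x.1) (fun j => j.1) (fun j hj => ?_) fun a _ b _ h =>
          Subtype.ext h).trans ?_
      · exact Finset.mem_sigma.2 ⟨Finset.mem_univ _, (Finset.mem_filter.1 hj).2⟩
      rw [Finset.card_sigma]
      refine (Finset.sum_le_card_nsmul _ _ _ fun i _ => (card_cand_le W p Sp i x.1).trans
        (Nat.mul_le_mul_right _ (card_nodes_le hW hp hMx ?_ i x.2))).trans_eq (by simp)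
      exact (Nat.le_mul_of_pos_left _ k.succ_pos).trans hQ
    refine (Nat.mul_le_mul_left 4 ((Finset.card_le_card h1).trans Finset.card_biUnion_le)).trans ?_
    refine Nat.le_of_mul_le_mul_right ?_ (Nat.pos_of_ne_zero (NeZero.ne P))
    rw [mul_assoc, Finset.sum_mul, Finset.sum_congr rfl fun j _ => show
      (zeroOn P {j}).card * P = n by simpa [n] using card_zeroOn P {j}, Finset.sum_const,
      smul_eq_mul]
    calc 4 * (Cd.card * n) = 4 * Cd.card * n := by ring
      _ ≤ P * n := Nat.mul_le_mul_right _ ((Nat.mul_le_mul_left 4 h2).trans hkill)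
      _ = n * P := Nat.mul_comm _ _
  obtain ⟨col, hcol⟩ : ∃ col : ↥ι0 → Fin P,
      ∑ x ∈ Finset.univ.filter (fun x : ↥W => fail col x ∨ killed col x), w x ≤
        (∑ x ∈ W, w x) / 2 := by
    by_contra hno
    push Not at hno
    have : Nonempty (↥ι0 → Fin P) := ⟨fun _ => 0⟩
    have h1 := Finset.sum_lt_sum_of_nonempty (s := (Finset.univ : Finset (↥ι0 → Fin P)))
      Finset.univ_nonempty fun col _ => hno col
    have h2 : ∑ col : ↥ι0 → Fin P,
        ∑ x ∈ Finset.univ.filter (fun x : ↥W => fail col x ∨ killed col x), w x ≤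
        (n : ℝ) * ((∑ x ∈ W, w x) / 2) := by
      rw [Finset.sum_congr rfl fun col _ => Finset.sum_filter _ _, Finset.sum_comm,
        ← Finset.sum_coe_sort W, Finset.sum_div, Finset.mul_sum]
      refine Finset.sum_le_sum fun x _ => ?_
      rw [← Finset.sum_filter, Finset.sum_const, nsmul_eq_mul, Finset.filter_or]
      have h3 := (Finset.card_union_le (Finset.univ.filter fun col => fail col x)
        (Finset.univ.filter fun col => killed col x))
      have h4 : 2 * ((Finset.univ.filter fun col => fail col x) ∪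
          (Finset.univ.filter fun col => killed col x)).card ≤ n := by
        have := hf x
        have := hkl x
        omega
      have h5 : (2 : ℝ) * ((Finset.univ.filter fun col => fail col x) ∪
          (Finset.univ.filter fun col => killed col x)).card ≤ (n : ℝ) := by exact_mod_cast h4
      have := hw.nonneg x.1
      nlinarith [mul_le_mul_of_nonneg_right h5 this]
    rw [Finset.sum_const, Finset.card_univ, hn, nsmul_eq_mul] at h1
    linarith
  set X : Finset ↥W := Finset.univ.filter fun x => ¬(fail col x ∨ killed col x)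
  have hWX : ∑ x ∈ W, w x ≤ 2 * ∑ x ∈ X, w x := by
    rw [← Finset.sum_coe_sort W] at hcol ⊢
    have h : ∑ x ∈ Finset.univ.filter (fun x : ↥W => fail col x ∨ killed col x), w x +
        ∑ x ∈ X, w x = ∑ x : ↥W, w x := Finset.sum_filter_add_sum_filter_not _ _ _
    linarith
  have hq : ∀ x : ↥W, ∃ q, x ∈ X → ∀ j ∈ J x q, col j = 0 := by
    intro x
    by_cases hx : x ∈ X
    · have := (not_or.1 (Finset.mem_filter.1 hx).2).1
      simp only [fail, not_forall, not_exists, not_and, not_not] at this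
      obtain ⟨q, hq⟩ := this
      exact ⟨q, fun _ => hq⟩
    · exact ⟨fun _ => false, fun h => absurd h hx⟩
  choose q hq using hq
  set e : ↥W → H := fun x => ext x.1 (q x)
  have hI : ∀ z ∈ X, ∀ x ∈ X, z ≠ x → Incomp Y (κ.T2 + Y.δ) (e z) (e x) := by
    intro z hz x hx hne
    obtain ⟨i, hi⟩ : ∃ i, Y.pt i z.1 ≠ Y.pt i x.1 := by
      by_contra h
      push Not at h
      exact hne (Subtype.ext (hW.tuple z.1 z.2 x.1 x.2 h))
    have key : ∀ z ∈ X, ∀ x ∈ X, Y.pt i z.1 ≠ Y.pt i x.1 → Y.ln i z.1 ≤ Y.ln i x.1 →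
        Incomp Y (κ.T2 + Y.δ) (e z) (e x) := by
      intro z hz x hx hi hle
      refine incomp_ext hW z.2 x.2 (hp _ z.2).1 (hp _ x.2).1 (hwne _) (hwne _) (hwd _) (hwd _) i
        hi hle ((hsp _ z.2 _ i).trans hQ) fun hlt => not_le.1 fun hsh => ?_
      refine (not_or.1 (Finset.mem_filter.1 hx).2).2 ⟨⟨_, hmem z.1 z.2 (q z) i⟩, ?_, ?_⟩
      · exact mem_cand hW hQ i z.2 x.2 (hp _ z.2).1 (hwne _) (hwd _) (hsp _ z.2 _ i) hlt hsh
      · exact hq z hz _ (Finset.mem_image_of_mem _ (Finset.mem_univ i))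
    rcases le_total (Y.ln i z.1) (Y.ln i x.1) with h | h
    · exact key z hz x hx hi h
    · exact incomp_symm (key x hx z hz hi.symm h)
  have hinjE : Set.InjOn e X := by
    intro z hz x hx h
    by_contra hne
    obtain ⟨i, hi⟩ := hI z hz x hx hne
    rw [← h, gh_self, min_self] at hi
    have := T2_le κ
    omega
  have hcode : ∑ y ∈ X.image e, w y ≤ 1 := by
    refine hw.code _ (prod_injective κ _ ?_ ?_)
    · intro y hy
      obtain ⟨z, -, rfl⟩ := Finset.mem_image.1 hy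
      exact ext_std κ (hW.std _ z.2) (hp _ z.2).1 (hwd _)
    · intro y hy y' hy' hne
      obtain ⟨z, hz, rfl⟩ := Finset.mem_image.1 hy
      obtain ⟨x, hx, rfl⟩ := Finset.mem_image.1 hy'
      exact hI z hz x hx fun h => hne (by rw [h])
  rw [Finset.sum_image hinjE] at hcode
  refine hWX.trans (mul_le_mul_of_nonneg_left ?_ zero_le_two)
  rw [inv_pow, ← one_div, le_div_iff₀ (pow_pos hc _), Finset.sum_mul]
  refine le_trans (Finset.sum_le_sum fun z _ => ?_) hcode
  have h := hw.mul_list hc.le (p z.1 :: wd (q z)) z.1 (by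
    intro a ha; rcases List.mem_cons.1 ha with rfl | h
    exacts [(hp _ z.2).1, hwd _ a h])
  rw [List.length_cons, hwlen, List.prod_cons, ← mul_assoc] at h
  exact h

end Vale.Agent.P165Hyp
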