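import Vale.Agent.P165Hyp.Group
import Vale.Agent.P165FreeProd.Cayley

/-!
# The exit kernel of a ball has small convolution norm at the critical value
-/

namespace Vale.Agent.P165Hyp

open Vale.Agent.P165 Vale.Agent.P165FreeProd Filter Topology

variable {d : ℕ} {G₀ : Type*} [Group G₀] {Γ : Type*} [Group Γ] [DecidableEq Γ] {emb : G₀ →* Γ}
  (D : Dec emb) (Y : Sys G₀ d) (S : Finset Γ)

open Classical in
/-- The inner boundary of the ball. -/
noncomputable def Dec.win (Y : Sys G₀ d) (S : Finset Γ) (i : ℕ) : Finset Γ :=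
  (D.ball Y i).filter fun x => ∃ s ∈ gens S, x * s ∉ D.ball Y i

/-- Two-point function inside the ball. -/
noncomputable def Dec.val (Y : Sys G₀ d) (S : Finset Γ) (i : ℕ) (p : ℝ) (x : Γ) : ℝ :=
  tauS (cnb S) (D.ball Y i) p 1 x

/-- A bound on the squared norm of the exit kernel. -/
noncomputable def Dec.kap (Y : Sys G₀ d) (S : Finset Γ) (i : ℕ) (H : Finset Γ)
    (p : ℝ) : ℝ :=
  4 * ((gens S).card : ℝ) ^ 2 * ((∑ x ∈ H, D.val Y S i p x) ^ 2 +
    ((D.R.card : ℝ) * D.R.card * (((i : ℝ) + 1) ^ d * ((i : ℝ) + 1) ^ d)) ^ 2 * Dec.fib Y *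
      ∑ x ∈ D.win Y S i \ H, D.val Y S i p x ^ 2)

theorem continuous_kap (i : ℕ) (H : Finset Γ) : Continuous (D.kap Y S i H) := by
  have hc : ∀ x, Continuous fun p => D.val Y S i p x := fun x => continuous_Pr _ _
  unfold Dec.kap
  fun_prop

variable {p : ℝ}

/-- A kernel with norm below one keeps the two-point function square summable. -/
theorem sq_le_of_kap (hinj : Function.Injective emb) (h0 : 0 ≤ p) (h1 : p ≤ 1) {i : ℕ}
    (hi : D.len Y 1 < i) {H : Finset Γ} (hH : H ⊆ D.win Y S i) (hk : D.kap Y S i H p < 1)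
    (F : Finset Γ) :
    ∑ x ∈ F, tau S p x ^ 2 ≤ 2 * ((D.ball Y i).card : ℝ) / (1 - D.kap Y S i H p) := by
  classical
  refine le_of_tendsto (tendsto_finsetSum F fun x _ => (tendsto_tau S h0 h1 x).pow 2)
    (Eventually.of_forall fun Λ => ?_)
  set N := Λ.card
  set a := aN S p N
  set U := reach (cnb S) N 1 ∪ F
  set M := ∑ z ∈ U, a z ^ 2
  set T := gens S
  set W := D.win Y S i
  set f := D.val Y S i p
  set P : ℝ := (D.R.card : ℝ) * D.R.card * (((i : ℝ) + 1) ^ d * ((i : ℝ) + 1) ^ d)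
  have hf : ∀ x, 0 ≤ f x := fun x => tauS_nonneg h0 h1 _ _ _
  have ha : ∀ x, 0 ≤ a x := fun x => aN_nonneg S h0 h1 N x
  have hsupp : ∀ y, a y ≠ 0 → y ∈ U := fun y hy =>
    Finset.mem_union_left _ (by_contra fun hh => hy (aN_eq_zero S h0 h1 hh))
  have hMg : ∀ g : Γ, ∑ z ∈ U, a (g * z) ^ 2 ≤ M := by
    intro g
    rw [← Finset.sum_image (f := fun y => a y ^ 2) (g := (g * ·))
      fun a _ b _ hab => mul_left_cancel hab]
    refine (Finset.sum_le_sum_of_subset_of_nonneg (t := U.image (g * ·) ∪ U)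
      Finset.subset_union_left fun v _ _ => sq_nonneg _).trans (le_of_eq ?_)
    exact (Finset.sum_subset Finset.subset_union_right fun v _ hv => by
      rw [by_contra fun h => hv (hsupp v h)]; ring).symm
  -- the first exit
  have hstep : ∀ z, a z ≤ (if z ∈ D.ball Y i then 1 else 0) +
      ∑ s ∈ T, ((∑ x ∈ H, f x * a (s⁻¹ * (x⁻¹ * z))) +
        ∑ x ∈ W \ H, f x * a (s⁻¹ * (x⁻¹ * z))) := by
    intro z
    refine (aN_exit S h0 h1 N ((D.mem_ball Y).2 hi) z).trans (add_le_add le_rfl ?_)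
    refine (mul_le_of_le_one_left (Finset.sum_nonneg fun x _ => mul_nonneg (hf x)
      (Finset.sum_nonneg fun s _ => ha _)) h1).trans ?_
    have hsplit : ∀ s, (∑ x ∈ H, f x * a (s⁻¹ * (x⁻¹ * z))) +
        ∑ x ∈ W \ H, f x * a (s⁻¹ * (x⁻¹ * z)) = ∑ x ∈ W, f x * a (s⁻¹ * (x⁻¹ * z)) := fun s => by
      rw [add_comm, Finset.sum_sdiff hH]
    rw [Finset.sum_congr rfl fun s _ => hsplit s, Finset.sum_comm]
    simp only [W, Dec.win]
    rw [Finset.sum_filter]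
    refine Finset.sum_le_sum fun x _ => ?_
    rw [Finset.mul_sum]
    split_ifs with hx
    · simp only [mul_inv_rev, mul_assoc]
      exact Finset.sum_le_sum_of_subset_of_nonneg (Finset.filter_subset _ _)
        fun s _ _ => mul_nonneg (hf x) (ha _)
    · simp only [not_exists, not_and, not_not] at hx
      rw [Finset.filter_false_of_mem fun s hs => not_not.2 (hx s hs), Finset.sum_empty]
  -- the two parts
  have hA : ∀ s, ∑ z ∈ U, (∑ x ∈ H, f x * a (s⁻¹ * (x⁻¹ * z))) ^ 2 ≤ (∑ x ∈ H, f x) ^ 2 * M := by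
    intro s
    calc ∑ z ∈ U, (∑ x ∈ H, f x * a (s⁻¹ * (x⁻¹ * z))) ^ 2
        ≤ ∑ z ∈ U, (∑ x ∈ H, f x) * ∑ x ∈ H, f x * a (s⁻¹ * (x⁻¹ * z)) ^ 2 :=
          Finset.sum_le_sum fun z _ => Finset.sum_sq_le_sum_mul_sum_of_sq_le_mul _
            (fun x _ => hf x) (fun x _ => mul_nonneg (hf x) (sq_nonneg _))
            fun x _ => le_of_eq (by ring)
      _ = (∑ x ∈ H, f x) * ∑ x ∈ H, f x * ∑ z ∈ U, a ((s⁻¹ * x⁻¹) * z) ^ 2 := by
          rw [← Finset.mul_sum, Finset.sum_comm]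
          simp only [Finset.mul_sum, mul_assoc]
      _ ≤ (∑ x ∈ H, f x) * ∑ x ∈ H, f x * M := mul_le_mul_of_nonneg_left
          (Finset.sum_le_sum fun x _ => mul_le_mul_of_nonneg_left (hMg _) (hf x))
          (Finset.sum_nonneg fun x _ => hf x)
      _ = _ := by rw [← Finset.sum_mul]; ring
  have hB : ∀ s, ∑ z ∈ U, (∑ x ∈ W \ H, f x * a (s⁻¹ * (x⁻¹ * z))) ^ 2 ≤
      P ^ 2 * (Dec.fib Y : ℝ) * ((∑ x ∈ W \ H, f x ^ 2) * M) := by
    intro s
    have h := conv_le D Y hinj (m := i) (A := W \ H) (fun x hx =>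
      ((D.mem_ball Y).1 (Finset.mem_filter.1 (Finset.mem_sdiff.1 hx).1).1).le) U (U.image (s * ·)) f
      (fun y => a (s⁻¹ * y))
    rw [Finset.sum_image (f := fun y => a (s⁻¹ * y) ^ 2) fun a _ b _ hab => mul_left_cancel hab]
      at h
    simp only [inv_mul_cancel_left] at h
    refine le_trans (le_of_eq (Finset.sum_congr rfl fun z _ => ?_)) h
    rw [Finset.sum_filter_of_ne]
    intro x _ hne
    exact Finset.mem_image.2 ⟨s⁻¹ * (x⁻¹ * z), hsupp _ (right_ne_zero_of_mul hne), by group⟩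
  have hM : M ≤ 2 * ((D.ball Y i).card : ℝ) + D.kap Y S i H p * M := by
    have hcard : (0 : ℝ) ≤ T.card := Nat.cast_nonneg _
    have hz : ∀ z, a z ^ 2 ≤ 2 * (if z ∈ D.ball Y i then (1 : ℝ) else 0) +
        4 * (T.card : ℝ) * ∑ s ∈ T, ((∑ x ∈ H, f x * a (s⁻¹ * (x⁻¹ * z))) ^ 2 +
          (∑ x ∈ W \ H, f x * a (s⁻¹ * (x⁻¹ * z))) ^ 2) := by
      intro z
      set u : ℝ := if z ∈ D.ball Y i then (1 : ℝ) else 0
      set v := fun s => (∑ x ∈ H, f x * a (s⁻¹ * (x⁻¹ * z))) +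
        ∑ x ∈ W \ H, f x * a (s⁻¹ * (x⁻¹ * z))
      have hu : u ^ 2 = u := by simp only [u]; split_ifs <;> norm_num
      have h2 : (∑ s ∈ T, v s) ^ 2 ≤ T.card * ∑ s ∈ T, v s ^ 2 := sq_sum_le_card_mul_sum_sq
      have h3 : ∑ s ∈ T, v s ^ 2 ≤ ∑ s ∈ T, 2 * ((∑ x ∈ H, f x * a (s⁻¹ * (x⁻¹ * z))) ^ 2 +
          (∑ x ∈ W \ H, f x * a (s⁻¹ * (x⁻¹ * z))) ^ 2) :=
        Finset.sum_le_sum fun s _ => add_sq_le
      rw [← Finset.mul_sum] at h3
      have h4 : a z ^ 2 ≤ (u + ∑ s ∈ T, v s) ^ 2 := pow_le_pow_left₀ (ha z) (hstep z) 2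
      have h5 := add_sq_le (a := u) (b := ∑ s ∈ T, v s)
      nlinarith [mul_le_mul_of_nonneg_left h3 hcard]
    refine (Finset.sum_le_sum fun z _ => hz z).trans ?_
    rw [Finset.sum_add_distrib, ← Finset.mul_sum, ← Finset.mul_sum]
    refine add_le_add (mul_le_mul_of_nonneg_left ?_ (by norm_num)) ?_
    · rw [Finset.sum_boole]
      exact Nat.cast_le.2 (Finset.card_le_card fun v hv => (Finset.mem_filter.1 hv).2)
    rw [Finset.sum_comm]
    refine (mul_le_mul_of_nonneg_left (Finset.sum_le_sum (g := fun _ =>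
      (∑ x ∈ H, f x) ^ 2 * M + P ^ 2 * (Dec.fib Y : ℝ) * ((∑ x ∈ W \ H, f x ^ 2) * M)) fun s _ => ?_)
      (by positivity)).trans (le_of_eq ?_)
    · rw [Finset.sum_add_distrib]
      exact add_le_add (hA s) (hB s)
    · rw [Finset.sum_const, nsmul_eq_mul]
      simp only [Dec.kap, T, f, P, W]
      ring
  rw [le_div_iff₀ (by linarith)]
  refine le_trans (mul_le_mul_of_nonneg_right ((Finset.sum_le_sum fun x _ => pow_le_pow_left₀
    (tauS_nonneg h0 h1 _ _ _) (tauS_le_aN S h0 h1 Λ le_rfl x) 2).trans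
    (Finset.sum_le_sum_of_subset_of_nonneg (t := U) Finset.subset_union_right
      fun v _ _ => sq_nonneg _)) (by linarith)) ?_
  change M * (1 - D.kap Y S i H p) ≤ _
  linarith

/-- Some ball has an exit kernel of small norm at the critical value. -/
theorem exists_kap_lt (κ : Kit Y) (hinj : Function.Injective emb) (hd : 0 < d)
    (hS : Subgroup.closure (S : Set Γ) = ⊤) {p0 q : ℝ} (hp0 : 0 < p0) (hq : p0 < q) (hq1 : q ≤ 1)
    (hsub : ∀ t, p0 ≤ t → t < q → Subcrit S t) :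
    ∃ i, D.len Y 1 < i ∧ ∃ H, H ⊆ D.win Y S i ∧ D.kap Y S i H q < 1 := by
  classical
  obtain ⟨k0, hk0⟩ := exists_uniform_pow S hS
    (κ.P.image emb ∪ D.R.image (·⁻¹))
  obtain ⟨C, K, hC, hlog⟩ := gweight_le_log D κ hinj hd (c := p0 ^ k0) (pow_pos hp0 _)
  have hbound : ∀ t, p0 ≤ t → t < q → ∀ U : Finset Γ,
      ∑ x ∈ U, tau S t x ≤ C * ((Nat.log 2 U.card : ℝ) + 1) ^ K := by
    intro t ht htq U
    have h0 : 0 ≤ t := hp0.le.trans ht
    have h1 : t ≤ 1 := htq.le.trans hq1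
    refine hlog _ ⟨tau_nonneg S h0 h1, tau_mul S h0 h1, fun v hv => ?_, fun r hr => ?_,
      code_le_one S h0 h1 (hsub t ht htq)⟩ U
    · exact (pow_le_pow_left₀ hp0.le ht _).trans (hk0 t h0 h1 _ (Finset.mem_union_left _
        (Finset.mem_image_of_mem _ hv)))
    · exact (pow_le_pow_left₀ hp0.le ht _).trans (hk0 t h0 h1 _ (Finset.mem_union_right _
        (Finset.mem_image_of_mem _ hr)))
  -- finite sums pass to the limit
  have hlim : ∀ g : ℝ → ℝ, Continuous g → ∀ c : ℝ, (∀ t, p0 ≤ t → t < q → g t ≤ c) → g q ≤ c := by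
    intro g hg c hc
    refine le_of_tendsto ((hg.tendsto q).mono_left (nhdsWithin_le_nhds (s := Set.Iio q))) ?_
    filter_upwards [Ico_mem_nhdsLT hq] with t ht using hc t ht.1 ht.2
  obtain ⟨M, hM⟩ := exists_step D Y (gens S)
  obtain ⟨B, hB⟩ := exists_card_ball D Y
  obtain ⟨b, hb⟩ : ∃ b, B ≤ 2 ^ b := ⟨B, Nat.lt_two_pow_self.le⟩
  obtain ⟨a, ha⟩ : ∃ a : ℕ, C * (3 * (b : ℝ) + 1) ^ K ≤ 2 ^ a :=
    (pow_unbounded_of_one_lt _ one_lt_two).imp fun _ h => h.le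
  set A := 4 * d + K + 1
  set Q : ℝ := (a : ℝ) + A + K + 1
  set r : ℝ := (D.R.card : ℝ) * D.R.card
  set Y' : ℝ := M * C * Q ^ K
  set Z : ℝ := r ^ 2 * (Dec.fib Y : ℝ) * (2 : ℝ) ^ (4 * d) * (C * (3 * (b : ℝ) + 1) ^ K)
  -- the scale
  obtain ⟨m, hm, hm1, hm2, hm3⟩ : ∃ m : ℕ, 1 ≤ m ∧ D.len Y 1 + 1 < 2 ^ m ∧
      (Y' * ((m : ℝ) + 1) ^ K / ((2 : ℝ) ^ m - 1)) ^ 2 * (8 * ((gens S).card : ℝ) ^ 2) < 1 / 2 ∧
      Z / (2 : ℝ) ^ m * (8 * ((gens S).card : ℝ) ^ 2) < 1 / 2 := by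
    have t1 : Tendsto (fun m : ℕ => (((m : ℝ) + 1) ^ K) / (2 : ℝ) ^ m) atTop (𝓝 0) := by
      have := ((tendsto_pow_const_div_const_pow_of_one_lt K (one_lt_two (α := ℝ))).comp
        (tendsto_add_atTop_nat 1)).mul_const 2
      simp only [Function.comp_def, zero_mul, Nat.cast_add, Nat.cast_one, pow_succ] at this
      refine this.congr fun m => ?_
      field_simp
    have t2 : Tendsto (fun m : ℕ => (1 : ℝ) / (2 : ℝ) ^ m) atTop (𝓝 0) := by
      simpa [one_div, ← inv_pow] using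
        tendsto_pow_atTop_nhds_zero_of_lt_one (by norm_num : (0 : ℝ) ≤ 2⁻¹) (by norm_num)
    have t3 : Tendsto (fun m : ℕ => Y' * ((m : ℝ) + 1) ^ K / ((2 : ℝ) ^ m - 1)) atTop (𝓝 0) := by
      have := (t1.const_mul Y').div ((tendsto_const_nhds (x := (1 : ℝ))).sub t2) (by norm_num)
      simp only [mul_zero, zero_div] at this
      refine this.congr fun m => ?_
      rw [Pi.div_apply]
      field_simp
    have e1 := ((t3.pow 2).mul_const (8 * ((gens S).card : ℝ) ^ 2)).eventually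
      (gt_mem_nhds (show (0 : ℝ) ^ 2 * (8 * ((gens S).card : ℝ) ^ 2) < 1 / 2 by norm_num))
    have e2 := ((t2.const_mul Z).mul_const (8 * ((gens S).card : ℝ) ^ 2)).eventually
      (gt_mem_nhds (show Z * 0 * (8 * ((gens S).card : ℝ) ^ 2) < 1 / 2 by norm_num))
    have e3 : ∀ᶠ m : ℕ in atTop, D.len Y 1 + 1 < 2 ^ m := by
      filter_upwards [eventually_ge_atTop (D.len Y 1 + 2)] with m hm
      exact lt_of_lt_of_le (by omega) (Nat.lt_two_pow_self.le)
    obtain ⟨m, h1, h2, h3, h4⟩ := (e1.and (e2.and (e3.and (eventually_ge_atTop 1)))).exists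
    exact ⟨m, h4, h3, h1, by rwa [mul_one_div] at h2⟩
  set G := 2 ^ m - 1 with hG
  have hG1 : G + 1 = 2 ^ m := by have := Nat.one_le_two_pow (n := m); omega
  have hGpos : 0 < G := by
    have h2 : 2 ^ 1 ≤ 2 ^ m := Nat.pow_le_pow_right (by norm_num) hm
    omega
  have hGr : ((G : ℝ) + 1) = (2 : ℝ) ^ m := by exact_mod_cast hG1
  set H : ℕ → Finset Γ := fun i =>
    (D.win Y S i).filter fun x => 1 < D.val Y S i q x * ((G : ℝ) + 1) ^ A
  set I := Finset.Ioc G (2 * G)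
  set U := I.biUnion H
  have hsize : ∀ V : Finset Γ, V ⊆ D.ball Y (2 * G) → Nat.log 2 V.card ≤ (2 * G + 1) * b := by
    intro V hV
    refine (Nat.log_mono_right ((Finset.card_le_card hV).trans ((hB _).trans
      (Nat.pow_le_pow_left hb _)))).trans (le_of_eq ?_)
    rw [← pow_mul, Nat.log_pow one_lt_two, mul_comm]
  have hWball : ∀ i ∈ I, D.win Y S i ⊆ D.ball Y (2 * G) := fun i hi x hx =>
    (D.mem_ball Y).2 (((D.mem_ball Y).1 (Finset.mem_filter.1 hx).1).trans_le (Finset.mem_Ioc.1 hi).2)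
  have hUball : U ⊆ D.ball Y (2 * G) := fun x hx => by
    obtain ⟨i, hi, hxi⟩ := Finset.mem_biUnion.1 hx
    exact hWball i hi (Finset.mem_filter.1 hxi).1
  have hpoly : ∀ V : Finset Γ, V ⊆ D.ball Y (2 * G) →
      C * ((Nat.log 2 V.card : ℝ) + 1) ^ K ≤
        C * (3 * (b : ℝ) + 1) ^ K * ((G : ℝ) + 1) ^ K := by
    intro V hV
    rw [mul_assoc, ← mul_pow]
    refine mul_le_mul_of_nonneg_left (pow_le_pow_left₀ (by positivity) ?_ _) hC
    have h1 : (Nat.log 2 V.card : ℝ) ≤ (2 * (G : ℝ) + 1) * b := by exact_mod_cast hsize V hV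
    have : (0 : ℝ) ≤ (G : ℝ) := Nat.cast_nonneg _
    have : (0 : ℝ) ≤ (b : ℝ) := Nat.cast_nonneg _
    nlinarith
  have hval : ∀ i x, Continuous fun t => D.val Y S i t x := fun i x => continuous_Pr _ _
  have hle : ∀ i x t, p0 ≤ t → t < q → D.val Y S i t x ≤ tau S t x := fun i x t ht htq =>
    tauS_le_tau S (hp0.le.trans ht) (htq.le.trans hq1) _ x
  -- the heavy points are few
  have hex : ∀ x ∈ U, ∃ i, x ∈ H i := fun x hx => by
    obtain ⟨i, -, hi⟩ := Finset.mem_biUnion.1 hx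
    exact ⟨i, hi⟩
  choose! iOf hiOf using hex
  have hUsum : ∑ x ∈ U, D.val Y S (iOf x) q x ≤ C * ((Nat.log 2 U.card : ℝ) + 1) ^ K :=
    hlim (fun t => ∑ x ∈ U, D.val Y S (iOf x) t x) (continuous_finsetSum _ fun x _ => hval _ x) _
      fun t ht htq => (Finset.sum_le_sum fun x _ => hle _ x t ht htq).trans (hbound t ht htq U)
  have hGA : (0 : ℝ) < ((G : ℝ) + 1) ^ A := by positivity
  have hUcard : (U.card : ℝ) ≤ (2 : ℝ) ^ a * ((G : ℝ) + 1) ^ (K + A) := by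
    have h1 : (U.card : ℝ) ≤ ∑ x ∈ U, D.val Y S (iOf x) q x * ((G : ℝ) + 1) ^ A := by
      rw [Finset.cast_card]
      exact Finset.sum_le_sum fun x hx => (Finset.mem_filter.1 (hiOf x hx)).2.le
    rw [← Finset.sum_mul] at h1
    refine h1.trans ?_
    rw [pow_add ((G : ℝ) + 1) K A, ← mul_assoc]
    refine mul_le_mul_of_nonneg_right (hUsum.trans ((hpoly U hUball).trans ?_)) hGA.le
    exact mul_le_mul_of_nonneg_right ha (by positivity)
  have hL : (Nat.log 2 U.card : ℝ) + 1 ≤ Q * ((m : ℝ) + 1) := by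
    have h1 : U.card ≤ 2 ^ (a + m * (K + A)) := by
      rw [pow_add, pow_mul]
      rw [hGr] at hUcard
      exact_mod_cast hUcard
    have h2 := Nat.log_mono_right (b := 2) h1
    rw [Nat.log_pow one_lt_two] at h2
    have h3 : (Nat.log 2 U.card : ℝ) ≤ (a : ℝ) + m * ((K : ℝ) + A) := by exact_mod_cast h2
    simp only [Q]
    have : (0 : ℝ) ≤ (m : ℝ) := Nat.cast_nonneg _
    have : (0 : ℝ) ≤ (a : ℝ) := Nat.cast_nonneg _
    have : (0 : ℝ) ≤ (A : ℝ) := Nat.cast_nonneg _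
    have : (0 : ℝ) ≤ (K : ℝ) := Nat.cast_nonneg _
    nlinarith
  have htot : ∑ i ∈ I, ∑ x ∈ H i, D.val Y S i q x ≤ Y' * ((m : ℝ) + 1) ^ K := by
    refine hlim (fun t => ∑ i ∈ I, ∑ x ∈ H i, D.val Y S i t x)
      (continuous_finsetSum _ fun i _ => continuous_finsetSum _ fun x _ => hval i x) _ ?_
    intro t ht htq
    have h0 : 0 ≤ t := hp0.le.trans ht
    have h1 : t ≤ 1 := htq.le.trans hq1
    calc ∑ i ∈ I, ∑ x ∈ H i, D.val Y S i t x ≤ ∑ i ∈ I, ∑ x ∈ H i, tau S t x :=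
          Finset.sum_le_sum fun i _ => Finset.sum_le_sum fun x _ => hle i x t ht htq
      _ = ∑ x ∈ U, ((I.filter fun i => x ∈ H i).card : ℝ) * tau S t x := by
          rw [Finset.sum_comm' (t' := U) (s' := fun x => I.filter fun i => x ∈ H i) (fun i x => ?_)]
          · exact Finset.sum_congr rfl fun x _ => by rw [Finset.sum_const, nsmul_eq_mul]
          · simp only [U, Finset.mem_biUnion, Finset.mem_filter]
            exact ⟨fun h => ⟨⟨h.1, h.2⟩, i, h.1, h.2⟩, fun h => ⟨h.1.1, h.1.2⟩⟩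
      _ ≤ ∑ x ∈ U, (M : ℝ) * tau S t x := by
          refine Finset.sum_le_sum fun x _ => mul_le_mul_of_nonneg_right ?_ (tau_nonneg S h0 h1 x)
          refine Nat.cast_le.2 ((Finset.card_le_card (t := Finset.Ioc (D.len Y x) (D.len Y x + M)) ?_).trans
            (by simp))
          intro i hi
          obtain ⟨-, hxi⟩ := Finset.mem_filter.1 hi
          obtain ⟨hb', s, hs, hout⟩ := Finset.mem_filter.1 (Finset.mem_filter.1 hxi).1
          refine Finset.mem_Ioc.2 ⟨(D.mem_ball Y).1 hb', ?_⟩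
          rw [D.mem_ball Y, not_lt] at hout
          exact hout.trans (hM x s hs)
      _ ≤ (M : ℝ) * (C * (Q * ((m : ℝ) + 1)) ^ K) := by
          rw [← Finset.mul_sum]
          exact mul_le_mul_of_nonneg_left ((hbound t ht htq U).trans
            (mul_le_mul_of_nonneg_left (pow_le_pow_left₀ (by positivity) hL _) hC))
            (Nat.cast_nonneg _)
      _ = _ := by simp only [Y', mul_pow]; ring
  -- a good window
  obtain ⟨i, hiI, hi⟩ : ∃ i ∈ I, ∑ x ∈ H i, D.val Y S i q x ≤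
      Y' * ((m : ℝ) + 1) ^ K / ((2 : ℝ) ^ m - 1) := by
    refine Finset.exists_le_of_sum_le (Finset.nonempty_Ioc.2 (by omega)) ?_
    rw [Finset.sum_const, Nat.card_Ioc, nsmul_eq_mul, show 2 * G - G = G by omega]
    refine htot.trans (le_of_eq ?_)
    have h2 : (2 : ℝ) ^ m - 1 = G := by linarith
    rw [h2, mul_div_cancel₀]
    exact_mod_cast hGpos.ne'
  obtain ⟨hi1, hi2⟩ := Finset.mem_Ioc.1 hiI
  refine ⟨i, by omega, H i, Finset.filter_subset _ _, ?_⟩
  have h0q : 0 ≤ q := (hp0.trans hq).le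
  have hv : ∀ x, 0 ≤ D.val Y S i q x := fun x => tauS_nonneg h0q hq1 _ _ _
  have hWsum : ∑ x ∈ D.win Y S i, D.val Y S i q x ≤
      C * (3 * (b : ℝ) + 1) ^ K * ((G : ℝ) + 1) ^ K := by
    refine le_trans ?_ (hpoly _ (hWball i hiI))
    exact hlim (fun t => ∑ x ∈ D.win Y S i, D.val Y S i t x)
      (continuous_finsetSum _ fun x _ => hval i x) _
      fun t ht htq => (Finset.sum_le_sum fun x _ => hle _ x t ht htq).trans (hbound t ht htq _)
  have hrest : (∑ x ∈ D.win Y S i \ H i, D.val Y S i q x ^ 2) * ((G : ℝ) + 1) ^ A ≤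
      C * (3 * (b : ℝ) + 1) ^ K * ((G : ℝ) + 1) ^ K := by
    rw [Finset.sum_mul]
    refine le_trans (Finset.sum_le_sum fun x hx => ?_)
      ((Finset.sum_le_sum_of_subset_of_nonneg Finset.sdiff_subset fun x _ _ => hv x).trans hWsum)
    obtain ⟨hxW, hxH⟩ := Finset.mem_sdiff.1 hx
    have : D.val Y S i q x * ((G : ℝ) + 1) ^ A ≤ 1 :=
      not_lt.1 fun h => hxH (Finset.mem_filter.2 ⟨hxW, h⟩)
    rw [pow_two, mul_assoc]
    exact mul_le_of_le_one_right (hv x) this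
  have hP : ((D.R.card : ℝ) * D.R.card * (((i : ℝ) + 1) ^ d * ((i : ℝ) + 1) ^ d)) ^ 2 *
      (Dec.fib Y : ℝ) ≤
      r ^ 2 * (Dec.fib Y : ℝ) * (2 : ℝ) ^ (4 * d) * ((G : ℝ) + 1) ^ (4 * d) := by
    rw [mul_pow, mul_right_comm, mul_assoc (r ^ 2 * (Dec.fib Y : ℝ)), ← mul_pow 2]
    refine mul_le_mul_of_nonneg_left ?_ (by positivity)
    rw [← pow_add, ← pow_mul, show (d + d) * 2 = 4 * d by ring]
    refine pow_le_pow_left₀ (by positivity) ?_ _
    have : (i : ℝ) ≤ 2 * G := by exact_mod_cast hi2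
    linarith
  have hrest' : ((D.R.card : ℝ) * D.R.card * (((i : ℝ) + 1) ^ d * ((i : ℝ) + 1) ^ d)) ^ 2 *
      (Dec.fib Y : ℝ) *
      ∑ x ∈ D.win Y S i \ H i, D.val Y S i q x ^ 2 ≤ Z / (2 : ℝ) ^ m := by
    rw [le_div_iff₀ (by positivity), ← hGr]
    refine le_of_mul_le_mul_right ?_ (pow_pos (show (0 : ℝ) < (G : ℝ) + 1 by positivity) (4 * d + K))
    rw [mul_assoc, ← pow_succ', show 4 * d + K + 1 = A from rfl, mul_assoc]
    refine (mul_le_mul hP hrest (mul_nonneg (Finset.sum_nonneg fun x _ => sq_nonneg _) hGA.le)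
      (by positivity)).trans (le_of_eq ?_)
    simp only [Z, pow_add]
    ring
  have hh : (∑ x ∈ H i, D.val Y S i q x) ^ 2 ≤ (Y' * ((m : ℝ) + 1) ^ K / ((2 : ℝ) ^ m - 1)) ^ 2 :=
    pow_le_pow_left₀ (Finset.sum_nonneg fun x _ => hv x) hi 2
  have hc0 : (0 : ℝ) ≤ ((gens S).card : ℝ) ^ 2 := sq_nonneg _
  unfold Dec.kap
  nlinarith [mul_le_mul_of_nonneg_left (add_le_add hh hrest') hc0]

end Vale.Agent.P165Hyp
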