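import Mathlib

/-!
# Isometric actions on finitely many hyperbolic spaces with integer distances
-/

namespace Vale.Agent.P165Hyp

/-- An action of a group on finitely many discrete hyperbolic spaces, uniformly proper on tuples. -/
structure Sys (H : Type*) [Group H] (d : ℕ) where
  /-- the spaces -/
  X : Fin d → Type
  /-- the distances -/
  dX : ∀ i, X i → X i → ℕ
  dX_self : ∀ i x, dX i x x = 0
  dX_comm : ∀ i x y, dX i x y = dX i y x
  dX_tri : ∀ i x y z, dX i x z ≤ dX i x y + dX i y z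
  geo : ∀ i x y a, a ≤ dX i x y → ∃ p, dX i x p = a ∧ dX i p y + a = dX i x y
  /-- growth constant of balls -/
  D : ℕ
  ball : ∀ i x r, ∃ s : Finset (X i), s.card ≤ D ^ r ∧ ∀ y, dX i x y ≤ r → y ∈ s
  /-- hyperbolicity constant -/
  δ : ℕ
  four : ∀ i x y z w, dX i x y + dX i z w ≤ max (dX i x z + dX i y w) (dX i x w + dX i y z) + δ
  /-- the action -/
  act : ∀ i, H → X i → X i
  act_one : ∀ i x, act i 1 x = x
  act_mul : ∀ i g h x, act i (g * h) x = act i g (act i h x)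
  act_iso : ∀ i h x y, dX i (act i h x) (act i h y) = dX i x y
  /-- base points -/
  o : ∀ i, X i
  /-- bound on the transporters of tuples -/
  N : ℕ
  trans_le : ∀ (p q : ∀ i, X i) (F : Finset H), (∀ h ∈ F, ∀ i, act i h (p i) = q i) → F.card ≤ N

variable {H : Type*} [Group H] {d : ℕ} (Y : Sys H d)

/-- Twice the Gromov product at the base point. -/
def Sys.gp (i : Fin d) (x y : Y.X i) : ℤ :=
  (Y.dX i (Y.o i) x : ℤ) + Y.dX i (Y.o i) y - Y.dX i x y

/-- The image of the base point. -/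
def Sys.pt (i : Fin d) (h : H) : Y.X i := Y.act i h (Y.o i)

/-- Displacement of the base point. -/
def Sys.ln (i : Fin d) (h : H) : ℕ := Y.dX i (Y.o i) (Y.pt i h)

/-- Twice the Gromov product of two orbit points. -/
def Sys.gh (i : Fin d) (g h : H) : ℤ := Y.gp i (Y.pt i g) (Y.pt i h)

variable (i : Fin d)

theorem gp_comm (x y : Y.X i) : Y.gp i x y = Y.gp i y x := by
  simp only [Sys.gp, Y.dX_comm i x y]; ring

theorem gp_self (x : Y.X i) : Y.gp i x x = 2 * (Y.dX i (Y.o i) x : ℤ) := by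
  simp only [Sys.gp, Y.dX_self]; push_cast; ring

theorem gp_nonneg (x y : Y.X i) : 0 ≤ Y.gp i x y := by
  have := Y.dX_tri i x (Y.o i) y
  rw [Y.dX_comm i x (Y.o i)] at this
  simp only [Sys.gp]; omega

theorem gp_le_left (x y : Y.X i) : Y.gp i x y ≤ 2 * (Y.dX i (Y.o i) x : ℤ) := by
  have := Y.dX_tri i (Y.o i) x y
  simp only [Sys.gp]; omega

theorem gp_le_right (x y : Y.X i) : Y.gp i x y ≤ 2 * (Y.dX i (Y.o i) y : ℤ) := by
  rw [gp_comm]; exact gp_le_left Y i y x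

theorem gp_four (x y z : Y.X i) : min (Y.gp i x y) (Y.gp i y z) - Y.δ ≤ Y.gp i x z := by
  have h := Y.four i x z y (Y.o i)
  rw [Y.dX_comm i y (Y.o i), Y.dX_comm i z (Y.o i), Y.dX_comm i x (Y.o i), Y.dX_comm i z y] at h
  simp only [Sys.gp, min_def]
  omega

theorem gp_lipschitz (x x' y : Y.X i) : Y.gp i x y ≤ Y.gp i x' y + 2 * (Y.dX i x x' : ℤ) := by
  have h1 := Y.dX_tri i (Y.o i) x' x
  have h2 := Y.dX_tri i x' x y
  rw [Y.dX_comm i x' x] at h1 h2
  simp only [Sys.gp]; omega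

theorem pt_mul (g h : H) : Y.pt i (g * h) = Y.act i g (Y.pt i h) := Y.act_mul i g h _

theorem pt_one : Y.pt i 1 = Y.o i := Y.act_one i _

theorem act_inv_act (g : H) (x : Y.X i) : Y.act i g⁻¹ (Y.act i g x) = x := by
  rw [← Y.act_mul, inv_mul_cancel, Y.act_one]

theorem dX_pt (g h : H) : Y.dX i (Y.pt i g) (Y.pt i h) = Y.ln i (g⁻¹ * h) := by
  rw [Sys.ln, ← Y.act_iso i g⁻¹, Sys.pt, act_inv_act, pt_mul]

theorem ln_inv (h : H) : Y.ln i h⁻¹ = Y.ln i h := by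
  have := dX_pt Y i h 1
  rw [pt_one, mul_one, Y.dX_comm] at this
  exact this.symm

theorem ln_mul_le (g h : H) : Y.ln i (g * h) ≤ Y.ln i g + Y.ln i h := by
  refine (Y.dX_tri i _ (Y.pt i g) _).trans (Nat.add_le_add le_rfl (le_of_eq ?_))
  rw [dX_pt, inv_mul_cancel_left]

theorem ln_one : Y.ln i 1 = 0 := by rw [Sys.ln, pt_one, Y.dX_self]

theorem gh_comm (g h : H) : Y.gh i g h = Y.gh i h g := gp_comm Y i _ _

theorem gh_eq (g h : H) : Y.gh i g h = (Y.ln i g : ℤ) + Y.ln i h - Y.ln i (g⁻¹ * h) := by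
  simp only [Sys.gh, Sys.gp, Sys.ln, dX_pt]

theorem gh_self (g : H) : Y.gh i g g = 2 * (Y.ln i g : ℤ) := gp_self Y i _

theorem gh_le_left (g h : H) : Y.gh i g h ≤ 2 * (Y.ln i g : ℤ) := gp_le_left Y i _ _

theorem gh_le_right (g h : H) : Y.gh i g h ≤ 2 * (Y.ln i h : ℤ) := gp_le_right Y i _ _

theorem gh_four (a b c : H) : min (Y.gh i a b) (Y.gh i b c) - Y.δ ≤ Y.gh i a c :=
  gp_four Y i _ _ _

/-- Concatenation. -/
theorem ln_mul (g h : H) : (Y.ln i (g * h) : ℤ) = Y.ln i g + Y.ln i h - Y.gh i g⁻¹ h := by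
  rw [gh_eq, inv_inv, ln_inv]; ring

theorem gh_mul_self (g h : H) : Y.gh i g (g * h) = 2 * (Y.ln i g : ℤ) - Y.gh i g⁻¹ h := by
  rw [gh_eq, inv_mul_cancel_left, ln_mul]; ring

theorem gh_mul_mul_le (u g h : H) :
    Y.gh i (u * g) (u * h) ≤ Y.gh i g h + 2 * (Y.ln i u : ℤ) := by
  rw [gh_eq, gh_eq, show (u * g)⁻¹ * (u * h) = g⁻¹ * h by group]
  have := ln_mul_le Y i u g
  have := ln_mul_le Y i u h
  omega

theorem gh_mul_right_le (g u h : H) : Y.gh i (g * u) h ≤ Y.gh i g h + 2 * (Y.ln i u : ℤ) := by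
  refine (gp_lipschitz Y i _ (Y.pt i g) _).trans (add_le_add le_rfl ?_)
  rw [dX_pt, show (g * u)⁻¹ * g = u⁻¹ by group, ln_inv]

/-- The point at distance `a` on a chosen geodesic from the base point to `x`. -/
noncomputable def Sys.gam (i : Fin d) (x : Y.X i) (a : ℕ) : Y.X i :=
  (Y.geo i (Y.o i) x (min a (Y.dX i (Y.o i) x)) (min_le_right _ _)).choose

theorem gam_spec {x : Y.X i} {a : ℕ} (ha : a ≤ Y.dX i (Y.o i) x) :
    Y.dX i (Y.o i) (Y.gam i x a) = a ∧ Y.dX i (Y.gam i x a) x + a = Y.dX i (Y.o i) x := by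
  obtain ⟨h1, h2⟩ :=
    (Y.geo i (Y.o i) x (min a (Y.dX i (Y.o i) x)) (min_le_right _ _)).choose_spec
  refine ⟨h1.trans (min_eq_left ha), ?_⟩
  conv_lhs => arg 2; rw [← min_eq_left ha]
  exact h2

theorem gp_gam {x : Y.X i} {a : ℕ} (ha : a ≤ Y.dX i (Y.o i) x) :
    Y.gp i (Y.gam i x a) x = 2 * (a : ℤ) := by
  obtain ⟨h1, h2⟩ := gam_spec Y i ha
  simp only [Sys.gp, h1]; omega

/-- Two points of one level both below `z` are close. -/
theorem near {p q z : Y.X i} {c : ℤ} {a : ℕ} (hp : Y.dX i (Y.o i) p ≤ a)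
    (hq : Y.dX i (Y.o i) q ≤ a) (h1 : 2 * (a : ℤ) - c ≤ Y.gp i p z)
    (h2 : 2 * (a : ℤ) - c ≤ Y.gp i q z) : (Y.dX i p q : ℤ) ≤ c + Y.δ := by
  have h := gp_four Y i p z q
  rw [gp_comm Y i z q] at h
  have h3 : 2 * (a : ℤ) - c ≤ min (Y.gp i p z) (Y.gp i q z) := le_min h1 h2
  simp only [Sys.gp] at h h3
  omega

/-- A point below `x` is close to the geodesic to `x`. -/
theorem near_gam {e x : Y.X i} {c : ℕ}
    (h : 2 * (Y.dX i (Y.o i) e : ℤ) - c ≤ Y.gp i e x) :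
    ∃ a ≤ Y.dX i (Y.o i) e, Y.dX i (Y.gam i x a) e ≤ c + Y.δ := by
  set n := Y.dX i (Y.o i) x
  have hn := gp_le_right Y i e x
  refine ⟨min (Y.dX i (Y.o i) e) n, min_le_left _ _, ?_⟩
  obtain ⟨h1, h2⟩ := gam_spec Y i (x := x) (min_le_right (Y.dX i (Y.o i) e) n)
  have h3 := gp_gam Y i (x := x) (min_le_right (Y.dX i (Y.o i) e) n)
  have h4 := near Y i (p := Y.gam i x (min (Y.dX i (Y.o i) e) n)) (q := e) (z := x)
    (a := Y.dX i (Y.o i) e) (c := c) (by rw [h1]; exact min_le_left _ _) le_rfl ?_ h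
  · omega
  · rw [h3]
    push_cast
    simp only [min_def]
    split_ifs <;> omega

end Vale.Agent.P165Hyp
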