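import Vale.Agent.P165Hyp.Main

/-!
# Hyperbolic graphs and independent pairs
-/

namespace Vale.Agent.P165Hyp

open Vale.Agent.P165

/-- The four point condition for the graph metric. -/
def Hyperbolic {X : Type} (G : SimpleGraph X) : Prop :=
  ∃ δ : ℕ, ∀ x y z w, G.dist x y + G.dist z w ≤
    max (G.dist x z + G.dist y w) (G.dist x w + G.dist y z) + δ

/-- Orbits with linear escape, in four directions whose Gromov products are bounded. -/
def Independent {H X : Type} [Group H] (G : SimpleGraph X) (act : H → X → X) (o : X) (g h : H) :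
    Prop :=
  ∃ C : ℕ, (∀ n : ℕ, n ≤ C * G.dist o (act (g ^ n) o) + C ∧ n ≤ C * G.dist o (act (h ^ n) o) + C) ∧
    ∀ p ∈ [(g, g⁻¹), (h, h⁻¹), (g, h), (g, h⁻¹), (g⁻¹, h), (g⁻¹, h⁻¹)], ∀ n m : ℕ,
      G.dist o (act (p.1 ^ n) o) + G.dist o (act (p.2 ^ m) o) ≤
        G.dist (act (p.1 ^ n) o) (act (p.2 ^ m) o) + C

theorem iso_dist_le {X : Type} {G : SimpleGraph X} (hG : G.Connected) (φ : G ≃g G) (x y : X) :
    G.dist (φ x) (φ y) ≤ G.dist x y := by
  obtain ⟨w, hw⟩ := hG.exists_walk_length_eq_dist x y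
  rw [← hw, ← SimpleGraph.Walk.length_map φ.toHom w]
  exact SimpleGraph.dist_le _

theorem iso_dist {X : Type} {G : SimpleGraph X} (hG : G.Connected) (φ : G ≃g G) (x y : X) :
    G.dist (φ x) (φ y) = G.dist x y := by
  refine le_antisymm (iso_dist_le hG φ x y) ?_
  have := iso_dist_le hG φ.symm (φ x) (φ y)
  simpa using this

theorem graph_geo {X : Type} {G : SimpleGraph X} (hG : G.Connected) (x y : X) (a : ℕ)
    (ha : a ≤ G.dist x y) : ∃ p, G.dist x p = a ∧ G.dist p y + a = G.dist x y := by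
  obtain ⟨w, hw⟩ := hG.exists_walk_length_eq_dist x y
  refine ⟨w.getVert a, ?_⟩
  have h1 := SimpleGraph.dist_le (w.take a)
  have h2 := SimpleGraph.dist_le (w.drop a)
  rw [SimpleGraph.Walk.take_length] at h1
  rw [SimpleGraph.Walk.drop_length] at h2
  have h3 := hG.dist_triangle (u := x) (v := w.getVert a) (w := y)
  omega

theorem graph_ball {X : Type} {G : SimpleGraph X} (hG : G.Connected) {D : ℕ}
    (hdeg : ∀ x, (G.neighborSet x).Finite ∧ (G.neighborSet x).ncard ≤ D) (x : X) :
    ∀ r, ∃ s : Finset X, s.card ≤ (D + 1) ^ r ∧ ∀ y, G.dist x y ≤ r → y ∈ s := by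
  classical
  intro r
  induction r with
  | zero =>
    refine ⟨{x}, by simp, fun y hy => ?_⟩
    have := (hG.dist_eq_zero_iff (u := x) (v := y)).1 (Nat.le_zero.1 hy)
    simp [this]
  | succ r ih =>
    obtain ⟨s, hs, hmem⟩ := ih
    refine ⟨s ∪ s.biUnion fun z => (hdeg z).1.toFinset, ?_, fun y hy => ?_⟩
    · refine (Finset.card_union_le _ _).trans ?_
      have h := Finset.card_biUnion_le.trans (Finset.sum_le_card_nsmul s
        (fun z => ((hdeg z).1.toFinset).card) D fun z _ => by
          rw [← Set.ncard_eq_toFinset_card _ (hdeg z).1]; exact (hdeg z).2)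
      rw [smul_eq_mul] at h
      calc s.card + _ ≤ s.card + s.card * D := Nat.add_le_add_left h _
        _ = s.card * (D + 1) := by ring
        _ ≤ (D + 1) ^ r * (D + 1) := Nat.mul_le_mul_right _ hs
        _ = _ := (pow_succ _ _).symm
    · rcases Nat.lt_or_ge r (G.dist x y) with hlt | hge
      · obtain ⟨p, hp1, hp2⟩ := graph_geo hG x y r hlt.le
        refine Finset.mem_union_right _ (Finset.mem_biUnion.2 ⟨p, hmem p hp1.le, ?_⟩)
        exact (hdeg p).1.mem_toFinset.2 (SimpleGraph.dist_eq_one_iff_adj.1 (by omega))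
      · exact Finset.mem_union_left _ (hmem y hge)

variable {Γ : Type} [Group Γ]

/-- The main theorem for actions on graphs. -/
theorem pc_lt_pu_of_graphs (S : Finset Γ) (H : Subgroup Γ) (hfi : H.FiniteIndex)
    (hS : Subgroup.closure (S : Set Γ) = ⊤) {d : ℕ} (hd : 0 < d) (X : Fin d → Type)
    (G : ∀ i, SimpleGraph (X i)) (ρ : ∀ i, H →* (G i ≃g G i)) (o : ∀ i, X i) (D N : ℕ)
    (hconn : ∀ i, (G i).Connected)
    (hdeg : ∀ i x, ((G i).neighborSet x).Finite ∧ ((G i).neighborSet x).ncard ≤ D)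
    (hhyp : ∀ i, Hyperbolic (G i))
    (htr : ∀ p q : ∀ i, X i, {h : H | ∀ i, ρ i h (p i) = q i}.Finite ∧
      {h : H | ∀ i, ρ i h (p i) = q i}.ncard ≤ N)
    (hpair : ∃ g h : H, ∀ i, Independent (G i) (fun a x => ρ i a x) (o i) g h) :
    pc (SimpleGraph.mulCayley (S : Set Γ)) < pu (SimpleGraph.mulCayley (S : Set Γ)) := by
  classical
  obtain ⟨g, h, hgh⟩ := hpair
  choose δ hδ using hhyp
  set Y : Sys H d :=
    { X := X
      dX := fun i => (G i).dist
      dX_self := fun i x => SimpleGraph.dist_self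
      dX_comm := fun i x y => SimpleGraph.dist_comm
      dX_tri := fun i x y z => (hconn i).dist_triangle
      geo := fun i => graph_geo (hconn i)
      D := D + 1
      ball := fun i => graph_ball (hconn i) (hdeg i)
      δ := ∑ i, δ i
      four := fun i x y z w => (hδ i x y z w).trans (Nat.add_le_add_left
        (Finset.single_le_sum (fun _ _ => Nat.zero_le _) (Finset.mem_univ i)) _)
      act := fun i a x => ρ i a x
      act_one := fun i x => by rw [map_one]; rfl
      act_mul := fun i a b x => by rw [map_mul]; rfl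
      act_iso := fun i a => iso_dist (hconn i) (ρ i a)
      o := o
      N := N
      trans_le := fun p q F hF => by
        refine le_trans ?_ (htr p q).2
        rw [← Set.ncard_coe_finset]
        exact Set.ncard_le_ncard (fun a ha => hF a ha) (htr p q).1 }
  choose C hC using hgh
  set C0 := ∑ i, C i
  have hCi : ∀ i, C i ≤ C0 := fun i =>
    Finset.single_le_sum (fun _ _ => Nat.zero_le _) (Finset.mem_univ i)
  have hlin : ∀ i (a n : ℕ), n ≤ C i * a + C i → n ≤ C0 * a + C0 := fun i a n hn =>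
    hn.trans (Nat.add_le_add (Nat.mul_le_mul_right _ (hCi i)) (hCi i))
  have hgp : ∀ i (p : H × H), p ∈ [(g, g⁻¹), (h, h⁻¹), (g, h), (g, h⁻¹), (g⁻¹, h), (g⁻¹, h⁻¹)] →
      ∀ n m : ℕ, Y.gh i (p.1 ^ n) (p.2 ^ m) ≤ (C0 : ℤ) := fun i p hp n m => by
    have h1 := (hC i).2 p hp n m
    have := hCi i
    simp only [Sys.gh, Sys.gp, Sys.pt, Y] at h1 ⊢
    omega
  obtain ⟨κ⟩ := exists_kit Y (g := g) (h := h) (C := C0)
    { gg := fun i n => hlin i _ n ((hC i).1 n).1
      hh := fun i n => hlin i _ n ((hC i).1 n).2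
      gG := fun i n m => hgp i (g, g⁻¹) (by simp) n m
      hH := fun i n m => hgp i (h, h⁻¹) (by simp) n m
      gh := fun i n m => hgp i (g, h) (by simp) n m
      gH := fun i n m => hgp i (g, h⁻¹) (by simp) n m
      Gh := fun i n m => hgp i (g⁻¹, h) (by simp) n m
      GH := fun i n m => hgp i (g⁻¹, h⁻¹) (by simp) n m }
  have := P165FreeProd.countable_gamma S hS
  exact pc_lt_pu_of_kit S κ hd H.subtype Subtype.val_injective (by rwa [Subgroup.range_subtype]) hS

/-- The main theorem for products of hyperbolic groups. -/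
theorem pc_lt_pu_of_product (S : Finset Γ) (H : Subgroup Γ) (hfi : H.FiniteIndex)
    (hS : Subgroup.closure (S : Set Γ) = ⊤) {d : ℕ} (hd : 0 < d) (Λ : Fin d → Type)
    [∀ i, Group (Λ i)] (T : ∀ i, Finset (Λ i))
    (hT : ∀ i, Subgroup.closure (T i : Set (Λ i)) = ⊤)
    (hhyp : ∀ i, Hyperbolic (SimpleGraph.mulCayley (T i : Set (Λ i))))
    (hpair : ∀ i, ∃ g h : Λ i,
      Independent (SimpleGraph.mulCayley (T i : Set (Λ i))) (fun a x => a * x) 1 g h)
    (φ : H ≃* ∀ i, Λ i) :
    pc (SimpleGraph.mulCayley (S : Set Γ)) < pu (SimpleGraph.mulCayley (S : Set Γ)) := by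
  classical
  choose g h hgh using hpair
  set ρ : ∀ i, H →* (SimpleGraph.mulCayley (T i : Set (Λ i)) ≃g
      SimpleGraph.mulCayley (T i : Set (Λ i))) := fun i =>
    { toFun := fun a => P165FreeProd.shift (T i) (φ a i)
      map_one' := RelIso.ext fun x => by simp [P165FreeProd.shift_apply]
      map_mul' := fun a b => RelIso.ext fun x => by
        show φ (a * b) i * x = φ a i * (φ b i * x)
        rw [map_mul, Pi.mul_apply, mul_assoc] }
  have hρ : ∀ i (a : H) x, ρ i a x = φ a i * x := fun i a x => rfl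
  refine pc_lt_pu_of_graphs S H hfi hS hd Λ _ ρ (fun _ => 1)
    (∑ i, (P165FreeProd.gens (T i)).card) 1 (fun i => P165FreeProd.connected_cay (T i) (hT i))
    (fun i x => ?_) hhyp (fun p q => ?_) ⟨φ.symm g, φ.symm h, fun i => ?_⟩
  · have e : (SimpleGraph.mulCayley (T i : Set (Λ i))).neighborSet x =
        ↑(P165FreeProd.cnb (T i) x) := by
      ext y
      exact ((P165FreeProd.lf_cay (T i)).mem).symm
    rw [e, Set.ncard_coe_finset]
    exact ⟨Finset.finite_toSet _, Finset.card_image_le.trans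
      (Finset.single_le_sum (f := fun i => (P165FreeProd.gens (T i)).card)
        (fun _ _ => Nat.zero_le _) (Finset.mem_univ i))⟩
  · have hss : {a : H | ∀ i, ρ i a (p i) = q i}.Subsingleton := fun a ha b hb =>
      φ.injective (funext fun i => mul_right_cancel ((hρ i a (p i)).symm.trans
        ((ha i).trans ((hb i).symm.trans (hρ i b (p i))))))
    exact ⟨hss.finite, (Set.ncard_le_one hss.finite).2 hss⟩
  · obtain ⟨C, h1, h2⟩ := hgh i
    have e : ∀ (a : ∀ i, Λ i) (n : ℕ), ρ i (φ.symm a ^ n) 1 = a i ^ n * 1 := fun a n => by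
      rw [hρ, map_pow, φ.apply_symm_apply, Pi.pow_apply]
    refine ⟨C, fun n => by simpa only [e] using h1 n, ?_⟩
    intro p hp n m
    simp only [List.mem_cons, List.not_mem_nil, or_false] at hp
    rcases hp with rfl | rfl | rfl | rfl | rfl | rfl <;>
      simp only [← map_inv, e, Pi.inv_apply] <;>
      exact h2 (_, _) (by simp) n m

end Vale.Agent.P165Hyp
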