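import Vale.Agent.P165Hyp.Log

/-!
# Groups with a finite index subgroup acting on hyperbolic spaces
-/

namespace Vale.Agent.P165Hyp

variable {H : Type*} [Group H] {d : ℕ} {Γ : Type*} [Group Γ]

/-- Representatives for the right cosets of the image. -/
structure Dec (emb : H →* Γ) where
  /-- the representatives -/
  R : Finset Γ
  /-- the component in the subgroup -/
  hc : Γ → H
  /-- the representative -/
  rc : Γ → Γ
  mem : ∀ x, rc x ∈ R
  eq : ∀ x, emb (hc x) * rc x = x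
  equiv : ∀ h x, hc (emb h * x) = h * hc x

theorem exists_dec (emb : H →* Γ) (hinj : Function.Injective emb)
    (hfi : emb.range.FiniteIndex) : Nonempty (Dec emb) := by
  classical
  have := hfi
  haveI : Fintype (Γ ⧸ emb.range) := Subgroup.fintypeQuotientOfFiniteIndex
  set rc : Γ → Γ := fun x => (QuotientGroup.mk x⁻¹ : Γ ⧸ emb.range).out⁻¹
  have h1 : ∀ x, ∃ h : H, emb h * rc x = x := by
    intro x
    obtain ⟨⟨_, h, rfl⟩, e⟩ := QuotientGroup.mk_out_eq_mul emb.range x⁻¹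
    refine ⟨h, ?_⟩
    simp only [rc, e, mul_inv_rev, inv_inv]
    group
  choose hc hhc using h1
  refine ⟨⟨(Finset.univ : Finset (Γ ⧸ emb.range)).image (fun q => q.out⁻¹), hc, rc,
    fun x => Finset.mem_image_of_mem _ (Finset.mem_univ _), hhc, fun h x => hinj ?_⟩⟩
  have e : rc (emb h * x) = rc x := by
    simp only [rc]
    congr 2
    rw [QuotientGroup.eq]
    simp [mul_assoc]
  have h2 := hhc (emb h * x)
  rw [e] at h2
  rw [_root_.map_mul]
  refine mul_right_cancel (b := rc x) ?_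
  rw [h2, mul_assoc, hhc]

variable {emb : H →* Γ} (D : Dec emb) (Y : Sys H d)

/-- The total displacement of the component in the subgroup. -/
def Dec.len (x : Γ) : ℕ := ∑ i, Y.ln i (D.hc x)

theorem exists_step (T : Finset Γ) :
    ∃ M : ℕ, ∀ x, ∀ s ∈ T, D.len Y (x * s) ≤ D.len Y x + M := by
  classical
  refine ⟨(D.R ×ˢ T).sup fun q => D.len Y (q.1 * q.2), fun x s hs => ?_⟩
  have e : D.hc (x * s) = D.hc x * D.hc (D.rc x * s) := by
    rw [← D.equiv, ← mul_assoc, D.eq]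
  refine le_trans ?_ (Nat.add_le_add_left (Finset.le_sup (f := fun q : Γ × Γ => D.len Y (q.1 * q.2))
    (Finset.mem_product.2 ⟨D.mem x, hs⟩ : (D.rc x, s) ∈ _)) _)
  simp only [Dec.len, e, ← Finset.sum_add_distrib]
  exact Finset.sum_le_sum fun i _ => ln_mul_le Y i _ _

/-- Finitely many elements move a given tuple near a given tuple. -/
theorem card_near_le (p q : ∀ i, Y.X i) (r : ℕ) (F : Finset H)
    (hF : ∀ h ∈ F, ∀ i, Y.dX i (q i) (Y.act i h (p i)) ≤ r) : F.card ≤ Y.N * Y.D ^ (r * d) := by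
  classical
  refine (Finset.card_le_mul_card_image_of_maps_to
    (t := Fintype.piFinset fun i => (Y.ball i (q i) r).choose)
    (f := fun h i => Y.act i h (p i))
    (fun h hh => Fintype.mem_piFinset.2 fun i => (Y.ball i (q i) r).choose_spec.2 _ (hF h hh i))
    Y.N fun t _ => Y.trans_le p t _ fun h hh i => congrFun (Finset.mem_filter.1 hh).2 i).trans ?_
  refine Nat.mul_le_mul_left _ ?_
  rw [Fintype.card_piFinset, pow_mul]
  refine (Finset.prod_le_prod' fun i _ => (Y.ball i (q i) r).choose_spec.1).trans_eq ?_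
  simp

theorem finite_len_lt (m : ℕ) :
    ∃ s : Finset Γ, s.card ≤ D.R.card * (Y.N * Y.D ^ (m * d)) ∧ ∀ x, D.len Y x < m → x ∈ s := by
  classical
  have hb : {h : H | ∀ i, Y.ln i h ≤ m}.Finite := by
    by_contra hinf
    obtain ⟨F, hF, hcard⟩ :=
      Set.Infinite.exists_subset_card_eq hinf (Y.N * Y.D ^ (m * d) + 1)
    have := card_near_le Y Y.o Y.o m F fun h hh i => hF hh i
    omega
  refine ⟨(D.R ×ˢ hb.toFinset).image fun q => emb q.2 * q.1, Finset.card_image_le.trans ?_, ?_⟩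
  · rw [Finset.card_product]
    exact Nat.mul_le_mul_left _ (card_near_le Y Y.o Y.o m _ fun h hh i => hb.mem_toFinset.1 hh i)
  · intro x hx
    refine Finset.mem_image.2 ⟨(D.rc x, D.hc x), Finset.mem_product.2 ⟨D.mem x,
      hb.mem_toFinset.2 fun i => ?_⟩, D.eq x⟩
    exact (Finset.single_le_sum (f := fun i => Y.ln i (D.hc x))
      (fun _ _ => Nat.zero_le _) (Finset.mem_univ i)).trans hx.le

open Classical in
/-- The elements of length below `m`. -/
noncomputable def Dec.ball (m : ℕ) : Finset Γ :=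
  (finite_len_lt D Y m).choose.filter fun x => D.len Y x < m

theorem Dec.mem_ball {m : ℕ} {x : Γ} : x ∈ D.ball Y m ↔ D.len Y x < m := by
  classical
  exact ⟨fun h => (Finset.mem_filter.1 h).2,
    fun h => Finset.mem_filter.2 ⟨(finite_len_lt D Y m).choose_spec.2 x h, h⟩⟩

theorem exists_card_ball : ∃ B : ℕ, ∀ m, (D.ball Y m).card ≤ B ^ (m + 1) := by
  classical
  refine ⟨D.R.card * Y.N + Y.D ^ d, fun m => (Finset.card_filter_le _ _).trans
    ((finite_len_lt D Y m).choose_spec.1.trans ?_)⟩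
  rw [← mul_assoc, pow_succ', mul_comm m d, pow_mul]
  exact Nat.mul_le_mul (Nat.le_add_right _ _) (Nat.pow_le_pow_left (Nat.le_add_left _ _) _)

/-- The number of ways to split a product along one key. -/
def Dec.fib (Y : Sys H d) : ℕ := Y.N * Y.D ^ ((4 * Y.δ + 1) * d)

/-- The centre of a triangle, seen from two sides. -/
theorem near_pair (i : Fin d) (a a' z : H) (α β : ℕ) (h1 : (Y.gh i a z).toNat / 2 = α)
    (h2 : (Y.gh i a' z).toNat / 2 = α) (h3 : Y.ln i a' - α = β) :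
    Y.dX i (Y.gam i (Y.pt i a) α) (Y.act i a' (Y.gam i (Y.pt i (a'⁻¹ * z)) β)) ≤ 4 * Y.δ + 1 := by
  have g1 := gh_le_left Y i a z
  have g2 := gh_le_left Y i a' z
  have g0 : 0 ≤ Y.gh i a z := gp_nonneg Y i _ _
  have g0' : 0 ≤ Y.gh i a' z := gp_nonneg Y i _ _
  set pA := Y.gam i (Y.pt i a) α with hpA
  set pA' := Y.gam i (Y.pt i a') α with hpA'
  have hαa : α ≤ Y.ln i a := by omega
  have hαa' : α ≤ Y.ln i a' := by omega
  obtain ⟨sa, -⟩ := gam_spec Y i (x := Y.pt i a) hαa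
  obtain ⟨sa', sb'⟩ := gam_spec Y i (x := Y.pt i a') hαa'
  have ga := gp_gam Y i (x := Y.pt i a) hαa
  have ga' := gp_gam Y i (x := Y.pt i a') hαa'
  rw [← hpA] at sa ga
  rw [← hpA'] at sa' sb' ga'
  have f1 := gp_four Y i pA (Y.pt i a) (Y.pt i z)
  have f2 := gp_four Y i pA' (Y.pt i a') (Y.pt i z)
  have hd1 : (Y.dX i pA pA' : ℤ) ≤ 2 * Y.δ := by
    have := near Y i (p := pA) (q := pA') (z := Y.pt i z) (a := α) (c := (Y.δ : ℤ))
      sa.le sa'.le (le_trans ?_ f1) (le_trans ?_ f2)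
    · omega
    all_goals
      simp only [Sys.gh] at h1 h2 g0 g0'
      simp only [ga, ga', min_def]
      split_ifs <;> omega
  set v : H := a'⁻¹ * z
  have hlv : (Y.ln i v : ℤ) = Y.ln i a' + Y.ln i z - Y.gh i a' z := by
    have := gh_eq Y i a' z
    simp only [v]
    omega
  have hβv : β ≤ Y.ln i v := by
    have := gh_le_right Y i a' z
    omega
  obtain ⟨sv, -⟩ := gam_spec Y i (x := Y.pt i v) hβv
  have gv := gp_gam Y i (x := Y.pt i v) hβv
  set pV := Y.gam i (Y.pt i v) β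
  set qA := Y.act i a'⁻¹ pA' with hqA
  have q1 : Y.dX i (Y.o i) qA + α = Y.ln i a' := by
    rw [← act_inv_act Y i a' (Y.o i), hqA, Y.act_iso]
    rw [Y.dX_comm] at sb'
    exact sb'
  have q2 : Y.gp i qA (Y.pt i a'⁻¹) = 2 * ((Y.ln i a' : ℤ) - α) := by
    have hq : Y.dX i qA (Y.pt i a'⁻¹) = α := by
      rw [hqA, show Y.pt i a'⁻¹ = Y.act i a'⁻¹ (Y.o i) from rfl, Y.act_iso, Y.dX_comm]
      exact sa'
    have hl := ln_inv Y i a'
    simp only [Sys.gp, hq]
    simp only [Sys.ln] at hl q1 ⊢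
    omega
  have q3 : Y.gp i (Y.pt i a'⁻¹) (Y.pt i v) = 2 * (Y.ln i a' : ℤ) - Y.gh i a' z := by
    have h := gh_eq Y i a'⁻¹ v
    simp only [v, inv_inv, mul_inv_cancel_left, ln_inv] at h
    have h' := gh_eq Y i a' z
    simp only [Sys.gh] at h h' ⊢
    simp only [v]
    omega
  have f3 := gp_four Y i qA (Y.pt i a'⁻¹) (Y.pt i v)
  have hd2 := near Y i (p := qA) (q := pV) (z := Y.pt i v) (a := β) (c := (Y.δ : ℤ) + 1)
    (by simp only [Sys.ln] at q1 h3 ⊢; omega) sv.le (le_trans ?_ f3) (by rw [gv]; omega)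
  · have htri := Y.dX_tri i pA pA' (Y.act i a' pV)
    have e : Y.act i a' qA = pA' := by rw [hqA, ← Y.act_mul, mul_inv_cancel, Y.act_one]
    rw [← Y.act_iso i a', e] at hd2
    omega
  · simp only [q2, q3, min_def]
    split_ifs <;> omega

open Classical in
/-- A convolution inequality of Haagerup type, for functions carried by a ball. -/
theorem conv_le [DecidableEq Γ] (hinj : Function.Injective emb) {m : ℕ} {A : Finset Γ}
    (hA : ∀ x ∈ A, D.len Y x ≤ m) (Z B : Finset Γ) (f g : Γ → ℝ) :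
    ∑ z ∈ Z, (∑ x ∈ A.filter (fun x => x⁻¹ * z ∈ B), f x * g (x⁻¹ * z)) ^ 2 ≤
      (((D.R.card : ℝ) * D.R.card * (((m : ℝ) + 1) ^ d * ((m : ℝ) + 1) ^ d)) ^ 2 *
        (Dec.fib Y : ℝ)) * ((∑ x ∈ A, f x ^ 2) * ∑ y ∈ B, g y ^ 2) := by
  have hlen : ∀ x ∈ A, ∀ i, Y.ln i (D.hc x) ≤ m := fun x hx i =>
    (Finset.single_le_sum (f := fun i => Y.ln i (D.hc x))
      (fun _ _ => Nat.zero_le _) (Finset.mem_univ i)).trans (hA x hx)
  set ca := fun i (x z : Γ) => (Y.gh i (D.hc x) (D.hc z)).toNat / 2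
  set cb := fun i (x z : Γ) => Y.ln i (D.hc x) - ca i x z
  set K := (D.R ×ˢ D.R) ×ˢ
    ((Finset.univ : Finset (Fin d → Fin (m + 1))) ×ˢ (Finset.univ : Finset (Fin d → Fin (m + 1))))
  set key : Γ → Γ → (Γ × Γ) × ((Fin d → Fin (m + 1)) × (Fin d → Fin (m + 1))) := fun x z =>
    ((D.rc x, D.rc z), (fun i => ⟨min (ca i x z) m, by omega⟩,
      fun i => ⟨min (cb i x z) m, by omega⟩))
  have hkeyK : ∀ x z, key x z ∈ K := fun x z => by simp [K, key, D.mem]
  set F : _ → Γ → ℝ := fun κ z =>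
    ∑ x ∈ A.filter (fun x => x⁻¹ * z ∈ B ∧ key x z = κ), f x * g (x⁻¹ * z)
  have hsplit : ∀ z, ∑ x ∈ A.filter (fun x => x⁻¹ * z ∈ B), f x * g (x⁻¹ * z) = ∑ κ ∈ K, F κ z := by
    intro z
    rw [← Finset.sum_fiberwise_of_maps_to (g := fun x => key x z) (fun x _ => hkeyK x z)]
    refine Finset.sum_congr rfl fun κ _ => Finset.sum_congr ?_ fun _ _ => rfl
    rw [Finset.filter_filter]
  have hF : ∀ κ ∈ K, ∑ z ∈ Z, F κ z ^ 2 ≤
      (Dec.fib Y : ℝ) * ((∑ x ∈ A, f x ^ 2) * ∑ y ∈ B, g y ^ 2) := by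
    intro κ _
    set cl : Γ → Finset Γ := fun z => A.filter fun x => x⁻¹ * z ∈ B ∧ key x z = κ
    set T := Z.sigma fun z => cl z ×ˢ cl z
    set φ : (Σ _ : Γ, Γ × Γ) → Γ × Γ := fun q => (q.2.1, q.2.2⁻¹ * q.1)
    have hfib : ∀ b ∈ A ×ˢ B, (T.filter fun q => φ q = b).card ≤ Dec.fib Y := by
      rintro ⟨x, y⟩ -
      set w : Γ := κ.1.1 * y * κ.1.2⁻¹
      rcases (T.filter fun q => φ q = (x, y)).eq_empty_or_nonempty with he | ⟨q0, hq0⟩
      · simp [he]
      set u : H := (D.hc q0.2.2)⁻¹ * D.hc q0.1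
      have hstruct : ∀ q ∈ T.filter (fun q => φ q = (x, y)), q.2.1 = x ∧
          emb ((D.hc q.2.2)⁻¹ * D.hc q.1) = w ∧ D.rc q.2.2 = κ.1.1 ∧ D.rc q.1 = κ.1.2 ∧
          q.2.2⁻¹ * q.1 = y ∧ q.2.1 ∈ cl q.1 ∧ q.2.2 ∈ cl q.1 := by
        rintro ⟨z, a, a'⟩ hq
        obtain ⟨hm, hφ⟩ := Finset.mem_filter.1 hq
        obtain ⟨-, hm⟩ := Finset.mem_sigma.1 hm
        obtain ⟨hm1, hm2⟩ := Finset.mem_product.1 hm
        simp only [φ, Prod.mk.injEq] at hφ
        have hk := (Finset.mem_filter.1 hm2).2.2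
        have r1 : D.rc a' = κ.1.1 := by rw [← hk]
        have r2 : D.rc z = κ.1.2 := by rw [← hk]
        refine ⟨hφ.1, ?_, r1, r2, hφ.2, hm1, hm2⟩
        have hx : emb (D.hc a') = a' * (D.rc a')⁻¹ := eq_mul_inv_of_mul_eq (D.eq a')
        have hz : emb (D.hc z) = z * (D.rc z)⁻¹ := eq_mul_inv_of_mul_eq (D.eq z)
        simp only [w]
        rw [_root_.map_mul, _root_.map_inv, hx, hz, mul_inv_rev, inv_inv, r1, r2, ← hφ.2]
        simp only [mul_assoc]
      -- the fibre injects into a set of near transporters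
      refine le_trans (le_of_eq (Finset.card_image_of_injOn (f := fun q => D.hc q.2.2) ?_).symm)
        (card_near_le Y (fun i => Y.gam i (Y.pt i u) (κ.2.2 i))
          (fun i => Y.gam i (Y.pt i (D.hc x)) (κ.2.1 i)) (4 * Y.δ + 1) _ ?_)
      · rintro ⟨z, a, a'⟩ hq ⟨z₁, a₁, a₁'⟩ hq₁ he
        obtain ⟨e1, -, e3, -, e5, -, -⟩ := hstruct _ hq
        obtain ⟨d1, -, d3, -, d5, -, -⟩ := hstruct _ hq₁
        simp only at e1 e3 e5 d1 d3 d5 he
        have haa : a' = a₁' := by rw [← D.eq a', ← D.eq a₁', he, e3, d3]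
        subst haa
        have hzz : z = z₁ := mul_left_cancel (e5.trans d5.symm)
        subst hzz
        rw [e1, d1]
      · intro h hh i
        obtain ⟨⟨z, a, a'⟩, hq, rfl⟩ := Finset.mem_image.1 hh
        obtain ⟨e1, e2, -, -, -, hm1, hm2⟩ := hstruct _ hq
        simp only at e1 e2 hm1 hm2 ⊢
        subst e1
        have k1 := (Finset.mem_filter.1 hm1).2.2
        have k2 := (Finset.mem_filter.1 hm2).2.2
        have la := hlen a (Finset.mem_filter.1 hm1).1 i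
        have la' := hlen a' (Finset.mem_filter.1 hm2).1 i
        have b1 : ((κ.2.1 i : Fin (m + 1)) : ℕ) = min (ca i a z) m := by rw [← k1]
        have b2 : ((κ.2.1 i : Fin (m + 1)) : ℕ) = min (ca i a' z) m := by rw [← k2]
        have b3 : ((κ.2.2 i : Fin (m + 1)) : ℕ) = min (cb i a' z) m := by rw [← k2]
        have g1 := gh_le_left Y i (D.hc a) (D.hc z)
        have g2 := gh_le_left Y i (D.hc a') (D.hc z)
        simp only [cb, ca] at b1 b2 b3
        have hv : (D.hc a')⁻¹ * D.hc z = u := hinj (e2.trans (hstruct _ hq0).2.1.symm)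
        rw [← hv]
        exact near_pair Y i (D.hc a) (D.hc a') (D.hc z) _ _ (by omega) (by omega) (by omega)
    calc ∑ z ∈ Z, F κ z ^ 2
        ≤ ∑ z ∈ Z, (∑ x ∈ cl z, f x ^ 2) * ∑ x' ∈ cl z, g (x'⁻¹ * z) ^ 2 :=
          Finset.sum_le_sum fun z _ => Finset.sum_mul_sq_le_sq_mul_sq _ _ _
      _ = ∑ q ∈ T, f (φ q).1 ^ 2 * g (φ q).2 ^ 2 := by
          rw [Finset.sum_sigma]
          exact Finset.sum_congr rfl fun z _ => by rw [Finset.sum_mul_sum, Finset.sum_product]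
      _ = ∑ b ∈ A ×ˢ B, ∑ q ∈ T.filter (fun q => φ q = b), f (φ q).1 ^ 2 * g (φ q).2 ^ 2 := by
          refine (Finset.sum_fiberwise_of_maps_to (fun q hq => ?_) _).symm
          simp only [T, Finset.mem_sigma, Finset.mem_product, cl, Finset.mem_filter] at hq
          exact Finset.mem_product.2 ⟨hq.2.1.1, hq.2.2.2.1⟩
      _ ≤ ∑ b ∈ A ×ˢ B, (Dec.fib Y : ℝ) * (f b.1 ^ 2 * g b.2 ^ 2) := by
          refine Finset.sum_le_sum fun b hb => ?_
          rw [Finset.sum_congr rfl fun q hq => show f (φ q).1 ^ 2 * g (φ q).2 ^ 2 =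
            f b.1 ^ 2 * g b.2 ^ 2 by rw [(Finset.mem_filter.1 hq).2], Finset.sum_const, nsmul_eq_mul]
          exact mul_le_mul_of_nonneg_right (Nat.cast_le.2 (hfib b hb)) (by positivity)
      _ = _ := by rw [← Finset.mul_sum, Finset.sum_mul_sum, Finset.sum_product]
  calc ∑ z ∈ Z, (∑ x ∈ A.filter (fun x => x⁻¹ * z ∈ B), f x * g (x⁻¹ * z)) ^ 2
      ≤ ∑ z ∈ Z, (K.card : ℝ) * ∑ κ ∈ K, F κ z ^ 2 := Finset.sum_le_sum fun z _ => by
        rw [hsplit]; exact sq_sum_le_card_mul_sum_sq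
    _ = (K.card : ℝ) * ∑ κ ∈ K, ∑ z ∈ Z, F κ z ^ 2 := by rw [← Finset.mul_sum, Finset.sum_comm]
    _ ≤ (K.card : ℝ) * ∑ κ ∈ K, (Dec.fib Y : ℝ) * ((∑ x ∈ A, f x ^ 2) * ∑ y ∈ B, g y ^ 2) :=
        mul_le_mul_of_nonneg_left (Finset.sum_le_sum hF) (Nat.cast_nonneg _)
    _ = _ := by
        rw [Finset.sum_const, nsmul_eq_mul, ← mul_assoc, ← mul_assoc, ← pow_two]
        congr 3
        simp [K]

/-- What is used of the connection function. -/
structure GWeight {Y : Sys H d} (κ : Kit Y) (emb : H →* Γ) (R : Finset Γ) (w : Γ → ℝ) (c : ℝ) :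
    Prop where
  nonneg : ∀ x, 0 ≤ w x
  mul_le : ∀ x y, w x * w y ≤ w (x * y)
  gen : ∀ a ∈ κ.P, c ≤ w (emb a)
  rep : ∀ r ∈ R, c ≤ w r⁻¹
  code : ∀ E : Finset Γ, (∀ l l' : List Γ, (∀ x ∈ l, x ∈ E) → (∀ x ∈ l', x ∈ E) →
    l.length = l'.length → l.prod = l'.prod → l = l') → ∑ x ∈ E, w x ≤ 1

theorem image_code [DecidableEq Γ] (hinj : Function.Injective emb) (E : Finset H)
    (hE : ∀ l l' : List H, (∀ x ∈ l, x ∈ E) → (∀ x ∈ l', x ∈ E) →
      l.length = l'.length → l.prod = l'.prod → l = l') :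
    ∀ l l' : List Γ, (∀ x ∈ l, x ∈ E.image emb) → (∀ x ∈ l', x ∈ E.image emb) →
      l.length = l'.length → l.prod = l'.prod → l = l' := by
  classical
  intro l l' hl hl' hlen he
  have pre : ∀ m : List Γ, (∀ x ∈ m, x ∈ E.image emb) →
      ∃ m' : List H, (∀ x ∈ m', x ∈ E) ∧ m'.map emb = m := by
    intro m
    induction m with
    | nil => exact fun _ => ⟨[], by simp, rfl⟩
    | cons a m ih =>
      intro hm
      obtain ⟨a', ha', rfl⟩ := Finset.mem_image.1 (hm a (by simp))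
      obtain ⟨m', h1, rfl⟩ := ih fun x hx => hm x (List.mem_cons_of_mem _ hx)
      exact ⟨a' :: m', by simpa [ha'] using h1, rfl⟩
  obtain ⟨a, ha, rfl⟩ := pre l hl
  obtain ⟨b, hb, rfl⟩ := pre l' hl'
  rw [← map_list_prod, ← map_list_prod] at he
  rw [hE a b ha hb (by simpa using hlen) (hinj he)]

/-- Every finite subset of the group has weight at most polylogarithmic in its size. -/
theorem gweight_le_log {Y : Sys H d} (κ : Kit Y) (hinj : Function.Injective emb) (hd : 0 < d)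
    {c : ℝ} (hc : 0 < c) :
    ∃ C : ℝ, ∃ K : ℕ, 0 ≤ C ∧ ∀ w : Γ → ℝ, GWeight κ emb D.R w c →
      ∀ U : Finset Γ, ∑ x ∈ U, w x ≤ C * ((Nat.log 2 U.card : ℝ) + 1) ^ K := by
  classical
  obtain ⟨C, K, hC, hb⟩ := weight_le_log κ hd hc
  refine ⟨(D.R.card : ℝ) * C / c, K, by positivity, fun w hw U => ?_⟩
  have hW : Weight κ (fun h : H => w (emb h)) c :=
    { nonneg := fun h => hw.nonneg _
      mul_le := fun a b => by simpa only [_root_.map_mul] using hw.mul_le (emb a) (emb b)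
      gen := hw.gen
      code := fun E hE => by
        rw [← Finset.sum_image hinj.injOn]
        exact hw.code _ (image_code hinj E hE) }
  have key : ∀ r ∈ D.R, c * ∑ x ∈ U.filter (fun x => D.rc x = r), w x ≤
      C * ((Nat.log 2 U.card : ℝ) + 1) ^ K := by
    intro r hr
    set V := U.filter fun x => D.rc x = r
    have hinjV : Set.InjOn D.hc V := fun x hx y hy h => by
      rw [← D.eq x, ← D.eq y, h, (Finset.mem_filter.1 hx).2, (Finset.mem_filter.1 hy).2]
    refine le_trans ?_ ((hb _ hW (V.image D.hc)).trans (mul_le_mul_of_nonneg_left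
      (pow_le_pow_left₀ (by positivity) (add_le_add (Nat.cast_le.2 (Nat.log_mono_right
        (Finset.card_image_le.trans (Finset.card_filter_le _ _)))) le_rfl) _) hC))
    rw [Finset.sum_image hinjV, Finset.mul_sum]
    refine Finset.sum_le_sum fun x hx => ?_
    have e : emb (D.hc x) = x * r⁻¹ := by
      rw [← (Finset.mem_filter.1 hx).2]
      exact eq_mul_inv_of_mul_eq (D.eq x)
    rw [e, mul_comm]
    exact (mul_le_mul_of_nonneg_left (hw.rep r hr) (hw.nonneg x)).trans (hw.mul_le _ _)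
  have h := Finset.sum_le_sum key
  rw [← Finset.mul_sum, Finset.sum_fiberwise_of_maps_to (fun x _ => D.mem x), Finset.sum_const,
    nsmul_eq_mul] at h
  rw [div_mul_eq_mul_div, le_div_iff₀ hc, mul_comm, mul_assoc]
  exact h

end Vale.Agent.P165Hyp
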