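import Vale.Agent.P165Hyp.Geo

/-!
# Pads from an independent pair, and straight concatenations
-/

namespace Vale.Agent.P165Hyp

variable {H : Type*} [Group H] {d : ℕ} (Y : Sys H d)

/-- Pads: long elements with separated beginnings and ends. -/
structure Kit where
  /-- the pads -/
  P : Finset H
  /-- separation -/
  T : ℕ
  /-- length -/
  L : ℕ
  card : d < P.card
  sep : ∀ a ∈ P, ∀ b ∈ P, a ≠ b → ∀ i, Y.gh i a b ≤ T ∧ Y.gh i a⁻¹ b⁻¹ ≤ T
  jun : ∀ a ∈ P, ∀ b ∈ P, ∀ i, Y.gh i a⁻¹ b ≤ T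
  long : ∀ a ∈ P, ∀ i, L ≤ Y.ln i a
  big : 10 * (T + Y.δ + 1) ≤ L

/-- What is asked of a pair of group elements. -/
structure Pair (g h : H) (C : ℕ) : Prop where
  gg : ∀ i n, n ≤ C * Y.ln i (g ^ n) + C
  hh : ∀ i n, n ≤ C * Y.ln i (h ^ n) + C
  gG : ∀ i n m, Y.gh i (g ^ n) (g⁻¹ ^ m) ≤ C
  hH : ∀ i n m, Y.gh i (h ^ n) (h⁻¹ ^ m) ≤ C
  gh : ∀ i n m, Y.gh i (g ^ n) (h ^ m) ≤ C
  gH : ∀ i n m, Y.gh i (g ^ n) (h⁻¹ ^ m) ≤ C
  Gh : ∀ i n m, Y.gh i (g⁻¹ ^ n) (h ^ m) ≤ C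
  GH : ∀ i n m, Y.gh i (g⁻¹ ^ n) (h⁻¹ ^ m) ≤ C

theorem branch (i : Fin d) {e p q : H} {C : ℤ} (hlong : 2 * C + Y.δ < 2 * (Y.ln i e : ℤ))
    (h1 : Y.gh i e p ≤ C) (h2 : Y.gh i e⁻¹ q ≤ C) : Y.gh i p (e * q) ≤ C + Y.δ := by
  have h3 := gh_mul_self Y i e q
  have h4 := gh_four Y i e (e * q) p
  rw [gh_comm Y i (e * q) p, min_def] at h4
  split_ifs at h4 <;> omega

theorem wrap_le (i : Fin d) (G : ℕ) {p q u v : H} (hu : Y.ln i u ≤ G) (hv : Y.ln i v ≤ G) :
    Y.gh i (p * u) (q * v) ≤ Y.gh i p q + 4 * (G : ℤ) := by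
  have h1 := gh_mul_right_le Y i p u (q * v)
  have h2 := gh_mul_right_le Y i q v p
  rw [gh_comm Y i p (q * v)] at h1
  rw [gh_comm Y i q p] at h2
  omega

theorem exists_kit {g h : H} {C : ℕ} (hp : Pair Y g h C) : Nonempty (Kit Y) := by
  classical
  set M0 := C * (C + Y.δ + 1) + C + 1
  set J := Finset.range (2 * (d + 1) * M0 + 1)
  set G := ∑ i, ∑ j ∈ J, Y.ln i (g ^ j)
  set T := C + Y.δ + 6 * G
  set L := 10 * (T + Y.δ + 1)
  obtain ⟨K, hK⟩ : ∃ K, K = C * (L + 2 * G) + C + 1 := ⟨_, rfl⟩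
  have hG : ∀ i j, j ≤ 2 * (d + 1) * M0 → Y.ln i (g ^ j) ≤ G := fun i j hj =>
    (Finset.single_le_sum (f := fun j => Y.ln i (g ^ j)) (fun _ _ => Nat.zero_le _)
      (Finset.mem_range.2 (Nat.lt_succ_of_le hj) : j ∈ J)).trans
      (Finset.single_le_sum (f := fun i => ∑ j ∈ J, Y.ln i (g ^ j)) (fun _ _ => Nat.zero_le _)
        (Finset.mem_univ i))
  have hG' : ∀ i j, j ≤ 2 * (d + 1) * M0 → Y.ln i (g⁻¹ ^ j) ≤ G := fun i j hj => by
    rw [inv_pow, ln_inv]; exact hG i j hj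
  have hpow : ∀ i n, M0 ≤ n → C + Y.δ + 1 ≤ Y.ln i (g ^ n) := by
    intro i n hn
    have h1 := hp.gg i n
    by_contra h2
    have := Nat.mul_le_mul_left C (Nat.le_of_lt (not_le.1 h2))
    simp only [M0] at hn
    omega
  have hpow' : ∀ i n, M0 ≤ n → C + Y.δ + 1 ≤ Y.ln i (g⁻¹ ^ n) := fun i n hn => by
    rw [inv_pow, ln_inv]; exact hpow i n hn
  set a : ℕ → H := fun j => g ^ (j * M0) * h ^ K * g ^ (j * M0)
  have hj : ∀ j, j ≤ d → j * M0 ≤ 2 * (d + 1) * M0 := fun j hj =>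
    Nat.mul_le_mul_right _ (by omega)
  -- beginnings
  have sepv : ∀ (e f : H), (∀ i j, j ≤ 2 * (d + 1) * M0 → Y.ln i (e ^ j) ≤ G) →
      (∀ i n, M0 ≤ n → C + Y.δ + 1 ≤ Y.ln i (e ^ n)) →
      (∀ i n m, Y.gh i (e ^ n) (f ^ m) ≤ C) → (∀ i n m, Y.gh i (e⁻¹ ^ n) (f ^ m) ≤ C) →
      ∀ i j k, j ≤ d → k ≤ d → j < k →
      Y.gh i (e ^ (j * M0) * f ^ K * e ^ (j * M0)) (e ^ (k * M0) * f ^ K * e ^ (k * M0)) ≤ T := by
    intro e f he he' h1 h2 i j k hjd hkd hjk
    refine (wrap_le Y i G (he i _ (hj j hjd)) (he i _ (hj k hkd))).trans ?_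
    obtain ⟨r, rfl⟩ : ∃ r, k = j + (r + 1) := ⟨k - j - 1, by omega⟩
    rw [Nat.add_mul, pow_add, mul_assoc]
    have h3 := gh_mul_mul_le Y i (e ^ (j * M0)) (f ^ K) (e ^ ((r + 1) * M0) * f ^ K)
    have h4 := branch Y i (e := e ^ ((r + 1) * M0)) (p := f ^ K) (q := f ^ K) (C := C)
      (by
        have := he' i ((r + 1) * M0) (Nat.le_mul_of_pos_left _ (by omega))
        omega)
      (h1 _ _ _) (by rw [← inv_pow]; exact h2 _ _ _)
    have := he i _ (hj j hjd)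
    simp only [T]
    push_cast
    omega
  have hinv : ∀ j, (a j)⁻¹ = g⁻¹ ^ (j * M0) * h⁻¹ ^ K * g⁻¹ ^ (j * M0) := fun j => by
    simp only [a, mul_inv_rev, inv_pow, mul_assoc]
  have hsep : ∀ i j k, j ≤ d → k ≤ d → j ≠ k →
      Y.gh i (a j) (a k) ≤ T ∧ Y.gh i (a j)⁻¹ (a k)⁻¹ ≤ T := by
    intro i j k hjd hkd hne
    rcases lt_or_gt_of_ne hne with hlt | hlt
    · exact ⟨sepv g h hG hpow hp.gh hp.Gh i j k hjd hkd hlt, by
        rw [hinv, hinv]
        exact sepv g⁻¹ h⁻¹ hG' hpow' hp.GH (by simpa using hp.gH) i j k hjd hkd hlt⟩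
    · rw [gh_comm, gh_comm Y i (a j)⁻¹]
      exact ⟨sepv g h hG hpow hp.gh hp.Gh i k j hkd hjd hlt, by
        rw [hinv, hinv]
        exact sepv g⁻¹ h⁻¹ hG' hpow' hp.GH (by simpa using hp.gH) i k j hkd hjd hlt⟩
  have hjun : ∀ i j k, j ≤ d → k ≤ d → Y.gh i (a j)⁻¹ (a k) ≤ T := by
    intro i j k hjd hkd
    rw [hinv]
    refine (wrap_le Y i G (hG' i _ (hj j hjd)) (hG i _ (hj k hkd))).trans ?_
    have h3 := gh_mul_mul_le Y i (g⁻¹ ^ (j * M0)) (h⁻¹ ^ K)
      ((g⁻¹ ^ (j * M0))⁻¹ * (g ^ (k * M0) * h ^ K))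
    rw [mul_inv_cancel_left] at h3
    have e : (g⁻¹ ^ (j * M0))⁻¹ * (g ^ (k * M0) * h ^ K) = g ^ ((j + k) * M0) * h ^ K := by
      rw [inv_pow, inv_inv, ← mul_assoc, ← pow_add, Nat.add_mul]
    rw [e] at h3
    have h5 : Y.gh i (h⁻¹ ^ K) (g ^ ((j + k) * M0) * h ^ K) ≤ (C : ℤ) + Y.δ := by
      rcases Nat.eq_zero_or_pos (j + k) with h0 | h0
      · rw [h0, Nat.zero_mul, pow_zero, one_mul, gh_comm]
        have := hp.hH i K K
        omega
      · exact branch Y i (by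
          have := hpow i ((j + k) * M0) (Nat.le_mul_of_pos_left _ h0)
          omega) (hp.gH _ _ _) (by rw [← inv_pow]; exact hp.Gh _ _ _)
    have := hG' i _ (hj j hjd)
    simp only [T]
    push_cast
    omega
  have hlong : ∀ i j, j ≤ d → L ≤ Y.ln i (a j) := by
    intro i j hjd
    have h1 : L + 2 * G < Y.ln i (h ^ K) + 1 := by
      have h2 := hp.hh i K
      by_contra h3
      have := Nat.mul_le_mul_left C (show Y.ln i (h ^ K) + 1 ≤ L + 2 * G by omega)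
      rw [Nat.mul_add, Nat.mul_one] at this
      omega
    have e : h ^ K = (g ^ (j * M0))⁻¹ * a j * (g ^ (j * M0))⁻¹ := by simp only [a]; group
    have h4 := ln_mul_le Y i ((g ^ (j * M0))⁻¹ * a j) (g ^ (j * M0))⁻¹
    have h5 := ln_mul_le Y i (g ^ (j * M0))⁻¹ (a j)
    rw [← e, ln_inv] at h4
    rw [ln_inv] at h5
    have := hG i _ (hj j hjd)
    omega
  refine ⟨{
    P := (Finset.range (d + 1)).image a
    T := T
    L := L
    card := ?_
    sep := ?_
    jun := ?_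
    long := ?_
    big := le_rfl }⟩
  · rw [Finset.card_image_of_injOn, Finset.card_range]
    · exact Nat.lt_succ_self d
    intro j hjm k hkm he
    by_contra hne
    have hjd := Nat.le_of_lt_succ (Finset.mem_range.1 hjm)
    have hkd := Nat.le_of_lt_succ (Finset.mem_range.1 hkm)
    rcases Nat.eq_zero_or_pos d with rfl | hd
    · omega
    have h1 := (hsep ⟨0, hd⟩ j k hjd hkd hne).1
    rw [← show a j = a k from he, gh_self] at h1
    have h2 := hlong ⟨0, hd⟩ j hjd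
    simp only [L] at h2
    omega
  · intro x hx y hy hne i
    obtain ⟨j, hj', rfl⟩ := Finset.mem_image.1 hx
    obtain ⟨k, hk', rfl⟩ := Finset.mem_image.1 hy
    exact hsep i j k (Nat.le_of_lt_succ (Finset.mem_range.1 hj'))
      (Nat.le_of_lt_succ (Finset.mem_range.1 hk')) fun h => hne (by rw [h])
  · intro x hx y hy i
    obtain ⟨j, hj', rfl⟩ := Finset.mem_image.1 hx
    obtain ⟨k, hk', rfl⟩ := Finset.mem_image.1 hy
    exact hjun i j k (Nat.le_of_lt_succ (Finset.mem_range.1 hj'))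
      (Nat.le_of_lt_succ (Finset.mem_range.1 hk'))
  · intro x hx i
    obtain ⟨j, hj', rfl⟩ := Finset.mem_image.1 hx
    exact hlong i j (Nat.le_of_lt_succ (Finset.mem_range.1 hj'))

variable {Y} (κ : Kit Y)

/-- The junction bound. -/
def Kit.T2 : ℤ := (κ.T : ℤ) + 2 * Y.δ

/-- The first grade of straightness. -/
def Kit.c1 : ℤ := 2 * (κ.L : ℤ) - 3 * κ.T - 4 * Y.δ

/-- The second grade of straightness. -/
def Kit.c2 : ℤ := κ.c1 - κ.T2 - Y.δ

/-- The third grade of straightness. -/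
def Kit.c3 : ℤ := κ.c2 - κ.T2 - Y.δ

/-- Beginning like a pad. -/
def Kit.St (c : ℤ) (y : H) : Prop := ∃ a ∈ κ.P, ∀ i, c ≤ Y.gh i a y

/-- Ending like a pad. -/
def Kit.En (c : ℤ) (y : H) : Prop := ∃ a ∈ κ.P, ∀ i, c ≤ Y.gh i a⁻¹ y⁻¹

/-- Beginning and ending like pads. -/
def Kit.Std (c : ℤ) (y : H) : Prop := κ.St c y ∧ κ.En c y

theorem c_ineq : κ.T2 + Y.δ < κ.c3 ∧ κ.c3 ≤ κ.c2 ∧ κ.c2 ≤ κ.c1 ∧ κ.c1 ≤ 2 * (κ.L : ℤ) := by
  have := κ.big
  simp only [Kit.c3, Kit.c2, Kit.c1, Kit.T2]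
  omega

theorem st_mono {c c' : ℤ} (h : c' ≤ c) {y : H} (hy : κ.Std c y) : κ.Std c' y := by
  obtain ⟨⟨a, ha, h1⟩, b, hb, h2⟩ := hy
  exact ⟨⟨a, ha, fun i => h.trans (h1 i)⟩, b, hb, fun i => h.trans (h2 i)⟩

theorem std_pad {a : H} (ha : a ∈ κ.P) : κ.Std κ.c1 a := by
  have hc := c_ineq κ
  refine ⟨⟨a, ha, fun i => ?_⟩, a, ha, fun i => ?_⟩ <;> rw [gh_self] <;>
    (try rw [ln_inv]) <;>
    · have := κ.long a ha i
      omega

theorem junction {c c' : ℤ} (hc : κ.T2 + Y.δ < c) (hc' : κ.T2 + Y.δ < c') {u v : H}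
    (hu : κ.En c u) (hv : κ.St c' v) (i : Fin d) : Y.gh i u⁻¹ v ≤ κ.T2 := by
  obtain ⟨b, hb, h1⟩ := hu
  obtain ⟨a, ha, h2⟩ := hv
  have h3 := κ.jun b hb a ha i
  have h4 := gh_four Y i b⁻¹ u⁻¹ v
  have h5 := gh_four Y i b⁻¹ v a
  rw [gh_comm Y i v a] at h5
  have h1' := h1 i
  have h2' := h2 i
  simp only [Kit.T2] at *
  simp only [min_def] at h4 h5
  split_ifs at h4 h5 <;> omega

theorem st_mul {c : ℤ} {u v : H} (hu : κ.St c u) (hj : ∀ i, Y.gh i u⁻¹ v ≤ κ.T2) :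
    κ.St (c - κ.T2 - Y.δ) (u * v) := by
  obtain ⟨a, ha, h⟩ := hu
  refine ⟨a, ha, fun i => ?_⟩
  have h1 := gh_four Y i a u (u * v)
  rw [gh_mul_self] at h1
  have := h i
  have := hj i
  have := gh_le_right Y i a u
  have : 0 ≤ κ.T2 := by simp only [Kit.T2]; omega
  simp only [min_def] at h1
  split_ifs at h1 <;> omega

theorem en_mul {c : ℤ} {u v : H} (hv : κ.En c v) (hj : ∀ i, Y.gh i u⁻¹ v ≤ κ.T2) :
    κ.En (c - κ.T2 - Y.δ) (u * v) := by
  obtain ⟨a, ha, h⟩ := hv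
  refine ⟨a, ha, fun i => ?_⟩
  have h1 := gh_four Y i a⁻¹ v⁻¹ (u * v)⁻¹
  rw [mul_inv_rev, gh_mul_self, inv_inv, gh_comm Y i v] at h1
  rw [mul_inv_rev]
  have := h i
  have := hj i
  have := gh_le_right Y i a⁻¹ v⁻¹
  have : 0 ≤ κ.T2 := by simp only [Kit.T2]; omega
  have := gp_nonneg Y i (Y.pt i u⁻¹) (Y.pt i v)
  simp only [Sys.gh] at *
  simp only [min_def] at h1
  split_ifs at h1 <;> omega

/-- A nonempty product of straight elements begins and ends like pads. -/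
theorem std_prod {c : ℤ} (hc : κ.T2 + Y.δ < c - κ.T2 - Y.δ) :
    ∀ (l : List H), l ≠ [] → (∀ x ∈ l, κ.Std c x) → κ.Std (c - κ.T2 - Y.δ) l.prod := by
  have h0 : 0 ≤ κ.T2 := by simp only [Kit.T2]; omega
  intro l hne hl
  constructor
  · induction l with
    | nil => exact absurd rfl hne
    | cons u rest ih =>
      rw [List.prod_cons]
      rcases eq_or_ne rest [] with rfl | hr
      · rw [List.prod_nil, mul_one]
        exact (st_mono κ (by omega) (hl u (by simp))).1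
      · exact st_mul κ (hl u (by simp)).1 (junction κ (by omega) hc (hl u (by simp)).2
          (ih hr fun x hx => hl x (List.mem_cons_of_mem _ hx)))
  · induction l using List.reverseRecOn with
    | nil => exact absurd rfl hne
    | append_singleton init u ih =>
      rw [List.prod_append, List.prod_singleton]
      rcases eq_or_ne init [] with rfl | hr
      · rw [List.prod_nil, one_mul]
        exact (st_mono κ (by omega) (hl u (by simp))).2
      · exact en_mul κ (hl u (by simp)).2 (junction κ hc (by omega)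
          (ih hr fun x hx => hl x (List.mem_append_left _ hx)) (hl u (by simp)).1)

/-- The first factor is seen from the product. -/
theorem head_prod {c : ℤ} (hc : κ.T2 + Y.δ < c - κ.T2 - Y.δ) {u : H} {rest : List H}
    (hl : ∀ x ∈ u :: rest, κ.Std c x) (i : Fin d) :
    2 * (Y.ln i u : ℤ) - κ.T2 ≤ Y.gh i u (u * rest.prod) ∧
      (Y.ln i u : ℤ) + Y.ln i rest.prod - κ.T2 ≤ Y.ln i (u * rest.prod) := by
  have h0 : 0 ≤ κ.T2 := by simp only [Kit.T2]; omega
  rcases eq_or_ne rest [] with rfl | hr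
  · rw [List.prod_nil, mul_one, gh_self, ln_one]
    constructor <;> omega
  · have hj := junction κ (by omega) hc (hl u (by simp)).2
      (std_prod κ hc rest hr fun x hx => hl x (List.mem_cons_of_mem _ hx)).1 i
    rw [gh_mul_self, ln_mul]
    constructor <;> omega

/-- Two elements neither of which continues the other in some factor. -/
def Incomp (Y : Sys H d) (c : ℤ) (u v : H) : Prop :=
  ∃ i, Y.gh i u v < 2 * min (Y.ln i u : ℤ) (Y.ln i v) - c

theorem incomp_symm {c : ℤ} {u v : H} (h : Incomp Y c u v) : Incomp Y c v u := by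
  obtain ⟨i, hi⟩ := h
  exact ⟨i, by rwa [gh_comm, min_comm]⟩

/-- Straight elements that are pairwise incomparable form a code. -/
theorem prod_injective (E : Finset H) (hE : ∀ x ∈ E, κ.Std κ.c2 x)
    (hI : ∀ x ∈ E, ∀ y ∈ E, x ≠ y → Incomp Y (κ.T2 + Y.δ) x y) :
    ∀ l l' : List H, (∀ x ∈ l, x ∈ E) → (∀ x ∈ l', x ∈ E) →
      l.length = l'.length → l.prod = l'.prod → l = l'
  | [], [], _, _, _, _ => rfl
  | [], _ :: _, _, _, h, _ => by simp at h
  | _ :: _, [], _, _, h, _ => by simp at h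
  | x :: l, y :: l', hl, hl', hlen, he => by
    have hxy : x = y := by
      by_contra hne
      obtain ⟨i, hi⟩ := hI x (hl x (by simp)) y (hl' y (by simp)) hne
      have hc := (c_ineq κ).1
      simp only [Kit.c3] at hc
      rw [List.prod_cons, List.prod_cons] at he
      have h1 := (head_prod κ hc (fun z hz => hE z (hl z hz)) i).1
      have h2 := (head_prod κ hc (fun z hz => hE z (hl' z hz)) i).1
      rw [← he] at h2
      have h3 := gh_four Y i x (x * l.prod) y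
      rw [gh_comm Y i (x * l.prod) y] at h3
      simp only [min_def] at hi h3
      split_ifs at hi h3 <;> omega
    subst hxy
    rw [List.prod_cons, List.prod_cons, mul_right_inj] at he
    rw [prod_injective E hE hI l l' (fun z hz => hl z (List.mem_cons_of_mem _ hz))
      (fun z hz => hl' z (List.mem_cons_of_mem _ hz)) (by simpa using hlen) he]

/-- Pads separate from all but one of any further element. -/
theorem exists_good (x : H) : (∃ a ∈ κ.P, ∀ i, Y.gh i a⁻¹ x ≤ (κ.T : ℤ) + Y.δ) ∧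
    ∃ b ∈ κ.P, ∀ i, Y.gh i x b ≤ (κ.T : ℤ) + Y.δ := by
  classical
  have key : ∀ f : H → Fin d → ℤ, (∀ i, ∀ a ∈ κ.P, ∀ b ∈ κ.P, a ≠ b →
      min (f a i) (f b i) ≤ (κ.T : ℤ) + Y.δ) → ∃ a ∈ κ.P, ∀ i, f a i ≤ (κ.T : ℤ) + Y.δ := by
    intro f hf
    by_contra hno
    push Not at hno
    set bad := fun i => κ.P.filter fun a => (κ.T : ℤ) + Y.δ < f a i
    have h1 : κ.P ⊆ (Finset.univ : Finset (Fin d)).biUnion bad := fun a ha => by
      obtain ⟨i, hi⟩ := hno a ha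
      exact Finset.mem_biUnion.2 ⟨i, Finset.mem_univ i, Finset.mem_filter.2 ⟨ha, hi⟩⟩
    have h2 := (Finset.card_le_card h1).trans (Finset.card_biUnion_le.trans
      (Finset.sum_le_card_nsmul _ _ 1 fun i _ => Finset.card_le_one.2 fun a ha b hb => by
        simp only [bad, Finset.mem_filter] at ha hb
        by_contra hne
        have := hf i a ha.1 b hb.1 hne
        simp only [min_def] at this
        split_ifs at this <;> omega))
    rw [Finset.card_univ, Fintype.card_fin, smul_eq_mul, mul_one] at h2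
    have := κ.card
    omega
  constructor
  · refine key (fun a i => Y.gh i a⁻¹ x) fun i a ha b hb hne => ?_
    have h := gh_four Y i a⁻¹ x b⁻¹
    rw [gh_comm Y i x b⁻¹] at h
    have := (κ.sep a ha b hb hne i).2
    omega
  · refine key (fun a i => Y.gh i x a) fun i a ha b hb hne => ?_
    have h := gh_four Y i a x b
    rw [gh_comm Y i a x] at h
    have := (κ.sep a ha b hb hne i).1
    omega

/-- Every element becomes straight after padding at both sides. -/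
theorem exists_pads (x : H) : ∃ a ∈ κ.P, ∃ b ∈ κ.P, κ.Std κ.c1 (a * x * b) := by
  obtain ⟨a, ha, h1⟩ := (exists_good κ x).1
  obtain ⟨b, hb, h2⟩ := (exists_good κ (a * x)⁻¹).2
  refine ⟨a, ha, b, hb, ⟨a, ha, fun i => ?_⟩, b, hb, fun i => ?_⟩
  · have h3 := gh_four Y i a (a * x) (a * x * b)
    rw [gh_mul_self, gh_mul_self] at h3
    have h4 := ln_mul Y i a x
    have := h1 i
    have := h2 i
    have := κ.long a ha i
    have := κ.big
    simp only [Kit.c1, min_def] at *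
    split_ifs at h3 <;> omega
  · rw [mul_inv_rev, gh_mul_self, inv_inv, gh_comm]
    have := h2 i
    have := κ.long b hb i
    have := κ.big
    simp only [Kit.c1, ln_inv]
    omega

end Vale.Agent.P165Hyp
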