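import Vale.Agent.P165Hyp.Code

/-!
# Polylogarithmic weight of finite sets
-/

namespace Vale.Agent.P165Hyp

variable {H : Type*} [Group H] {d : ℕ} {Y : Sys H d} (κ : Kit Y)

theorem two_pow_clog_le (n : ℕ) (hn : 1 ≤ n) : 2 ^ Nat.clog 2 n ≤ 2 * n := by
  rcases Nat.eq_zero_or_pos (Nat.clog 2 n) with h | h
  · rw [h]; omega
  · have h1 : 1 < n := by
      by_contra h2
      have := Nat.clog_of_right_le_one (not_lt.1 h2) 2
      omega
    have h2 := Nat.pow_pred_clog_lt_self one_lt_two h1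
    have h3 : 2 ^ Nat.clog 2 n = 2 * 2 ^ (Nat.clog 2 n - 1) := by
      rw [← pow_succ']; congr 1; omega
    change 2 ^ (Nat.clog 2 n - 1) < n at h2
    omega

theorem two_mul_succ_le (t : ℕ) (ht : 3 ≤ t) : 2 * t + 1 ≤ 2 ^ t := by
  induction t, ht using Nat.le_induction with
  | base => norm_num
  | succ n hn ih => rw [pow_succ]; omega

theorem final_bound {x y : ℝ} {F T Z Nn a D : ℕ} {W : ℝ} (hF : (x : ℝ) ≤ (F : ℝ) * y)
    (hx : 0 ≤ x) (hy : 0 ≤ y) (hW0 : 0 ≤ W) (hW : W ≤ (T : ℝ) * y ^ a) (hy2 : y ≤ (Z : ℝ)) :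
    x ^ D * ((Nn : ℝ) + 1) * (2 * W) ≤
      (F : ℝ) ^ D * ((Nn : ℝ) + 1) * 2 * T * (Z : ℝ) ^ (D + a) := by
  rw [pow_add (Z : ℝ)]
  calc x ^ D * ((Nn : ℝ) + 1) * (2 * W)
      ≤ ((F : ℝ) * y) ^ D * ((Nn : ℝ) + 1) * (2 * ((T : ℝ) * y ^ a)) := by gcongr
    _ = (F : ℝ) ^ D * ((Nn : ℝ) + 1) * 2 * T * (y ^ D * y ^ a) := by ring
    _ ≤ _ := by gcongr

/-- Straight sets have polylogarithmic weight. -/
theorem std_weight_le (hd : 0 < d) {c : ℝ} (hc : 0 < c) :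
    ∃ C : ℝ, ∃ K : ℕ, 0 ≤ C ∧ ∀ w : H → ℝ, Weight κ w c →
      ∀ V : Finset H, (∀ z ∈ V, κ.Std κ.c1 z) →
        ∑ x ∈ V, w x ≤ C * ((Nat.log 2 V.card : ℝ) + 1) ^ K := by
  classical
  obtain ⟨K0, hK0⟩ : ∃ K0 : ℕ, c⁻¹ ≤ 2 ^ K0 :=
    (pow_unbounded_of_one_lt c⁻¹ one_lt_two).imp fun _ h => h.le
  set Mx := ∑ i, ∑ a ∈ κ.P, Y.ln i a
  have hMx : ∀ a ∈ κ.P, ∀ i, Y.ln i a ≤ Mx := fun a ha i =>
    (Finset.single_le_sum (f := fun a => Y.ln i a) (fun _ _ => Nat.zero_le _) ha).trans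
      (Finset.single_le_sum (f := fun i => ∑ a ∈ κ.P, Y.ln i a) (fun _ _ => Nat.zero_le _)
        (Finset.mem_univ i))
  set R0 := C0 κ + Y.δ
  set B0 := Y.D ^ R0
  set A1 := 4 * (d * (((d + 3) * (Mx + R0 + 1)) * B0)) + 1
  set F := (B0 + 1) * ((d + 3) * 3 * (Mx + 1))
  refine ⟨((F : ℝ) ^ d * (Y.N + 1) * 2 * (2 ^ K0) ^ 3) * (16 * (A1 : ℝ)) ^ (d + 2 * d * K0),
    d + 2 * d * K0, by positivity, fun w hw V hV => ?_⟩
  set L := Nat.log 2 V.card
  set t := Nat.clog 2 (A1 * (L + 1)) + 3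
  set s := 2 * t
  set k := d * s + 2
  set Q := (k + 1) * (Mx + 1)
  have ht : A1 * (L + 1) ≤ 2 ^ t :=
    (Nat.le_pow_clog one_lt_two _).trans (Nat.pow_le_pow_right two_pos (Nat.le_add_right _ _))
  have ht2 : 2 ^ t ≤ 16 * (A1 * (L + 1)) := by
    have := two_pow_clog_le (A1 * (L + 1)) (Nat.mul_pos (Nat.succ_pos _) (Nat.succ_pos _))
    simp only [t, pow_add]
    omega
  have ht3 := two_mul_succ_le t (Nat.le_add_left _ _)
  have hk1 : k + 1 ≤ (d + 3) * (2 * t + 1) := by simp only [k, s]; nlinarith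
  -- colours
  choose col hcol using fun i => exists_colouring (fun u v : Y.X i => Y.dX i u v ≤ R0)
    (fun u v h => by rwa [Y.dX_comm]) B0 (V.image (Y.pt i)) fun v _ => by
      refine le_trans (Finset.card_le_card fun u hu => ?_) (Y.ball i v R0).choose_spec.1
      exact (Y.ball i v R0).choose_spec.2 u (Finset.mem_filter.1 hu).2
  obtain ⟨tc, htc⟩ := exists_colouring (fun u v : H => ∀ i, Y.pt i u = Y.pt i v)
    (fun u v h i => (h i).symm) Y.N V fun v _ =>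
      Y.trans_le Y.o (fun i => Y.pt i v) _ fun u hu i => ((Finset.mem_filter.1 hu).2 i).symm
  have hQ0 : 0 < Q := Nat.mul_pos (Nat.succ_pos _) (Nat.succ_pos _)
  set cls : H → (Fin d → Fin (B0 + 1) × Fin Q) × Fin (Y.N + 1) := fun z =>
    (fun i => (col i (Y.pt i z), ⟨Y.ln i z % Q, Nat.mod_lt _ hQ0⟩), tc z)
  have : Nonempty (Fin Q) := ⟨⟨0, hQ0⟩⟩
  obtain ⟨ρ, -, hρ⟩ := Finset.exists_max_image
    (Finset.univ : Finset ((Fin d → Fin (B0 + 1) × Fin Q) × Fin (Y.N + 1)))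
    (fun ρ => ∑ z ∈ V.filter (fun z => cls z = ρ), w z) Finset.univ_nonempty
  set W := V.filter fun z => cls z = ρ
  have hVW : ∑ z ∈ V, w z ≤ (((B0 + 1) * Q) ^ d * (Y.N + 1) : ℕ) * ∑ z ∈ W, w z := by
    rw [← Finset.sum_fiberwise V cls w]
    refine (Finset.sum_le_card_nsmul _ _ _ hρ).trans_eq ?_
    simp [W, mul_pow]
  have hW : Thin Y κ W Q := by
    refine ⟨fun z hz => hV z (Finset.mem_filter.1 hz).1, ?_, ?_, ?_⟩
    · intro z hz x hx h
      by_contra hne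
      exact htc z (Finset.mem_filter.1 hz).1 x (Finset.mem_filter.1 hx).1 h hne
        (congrArg Prod.snd ((Finset.mem_filter.1 hz).2.trans (Finset.mem_filter.1 hx).2.symm))
    · intro z hz x hx i _ hnear
      by_contra hne
      have h := congrFun (congrArg Prod.fst
        ((Finset.mem_filter.1 hz).2.trans (Finset.mem_filter.1 hx).2.symm)) i
      exact hcol i _ (Finset.mem_image_of_mem _ (Finset.mem_filter.1 hz).1) _
        (Finset.mem_image_of_mem _ (Finset.mem_filter.1 hx).1) hnear hne (congrArg Prod.fst h)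
    · intro z hz x hx i hlt
      have h := congrArg (fun r => ((r.1 i).2 : ℕ))
        ((Finset.mem_filter.1 hz).2.trans (Finset.mem_filter.1 hx).2.symm)
      simp only [cls] at h
      have h2 := Nat.le_of_dvd (by omega) ((Nat.modEq_iff_dvd' hlt.le).1 h)
      omega
  have hfail : 4 * (2 ^ s) ^ d ≤ 2 ^ k := by
    rw [← pow_mul, show k = s * d + 2 by simp only [k]; ring, pow_add]
    omega
  have hlog : Nat.log 2 W.card ≤ L := Nat.log_mono_right (Finset.card_filter_le _ _)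
  have hkill : 4 * (d * (Nat.log 2 W.card *
      (((k + 1) * Mx + (C0 κ + Y.δ) + 1) * Y.D ^ (C0 κ + Y.δ)))) ≤ 2 ^ s := by
    have h1 : (k + 1) * Mx + R0 + 1 ≤ (2 * t + 1) * ((d + 3) * (Mx + R0 + 1)) := by
      calc (k + 1) * Mx + R0 + 1 ≤ (k + 1) * (Mx + R0 + 1) := by nlinarith
        _ ≤ (d + 3) * (2 * t + 1) * (Mx + R0 + 1) := Nat.mul_le_mul_right _ hk1
        _ = _ := by ring
    calc 4 * (d * (Nat.log 2 W.card * (((k + 1) * Mx + R0 + 1) * B0)))
        ≤ 4 * (d * ((L + 1) * ((2 * t + 1) * ((d + 3) * (Mx + R0 + 1)) * B0))) := by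
          gcongr; omega
      _ = 4 * (d * (((d + 3) * (Mx + R0 + 1)) * B0)) * (L + 1) * (2 * t + 1) := by ring
      _ ≤ A1 * (L + 1) * (2 * t + 1) := by gcongr; exact Nat.le_succ _
      _ ≤ 2 ^ t * 2 ^ t := Nat.mul_le_mul ht ht3
      _ = 2 ^ s := by rw [← pow_add]; congr 1; simp only [s]; omega
  have hthin := thin_weight_le hd hW hMx (k := k) (s := s) (by simp only [k]; omega)
    (Nat.mul_le_mul_left _ (Nat.le_succ _)) hfail hkill hc hw
  have hQF : (B0 + 1) * Q ≤ F * 2 ^ t := by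
    calc (B0 + 1) * Q ≤ (B0 + 1) * ((d + 3) * (3 * 2 ^ t) * (Mx + 1)) := by
          refine Nat.mul_le_mul_left _ (Nat.mul_le_mul_right _ (hk1.trans ?_))
          gcongr
          omega
      _ = F * 2 ^ t := by simp only [F]; ring
  have hck : c⁻¹ ^ (k + 1) ≤ ((2 : ℝ) ^ K0) ^ 3 * ((2 : ℝ) ^ t) ^ (2 * d * K0) := by
    refine (pow_le_pow_left₀ (by positivity) hK0 _).trans (le_of_eq ?_)
    rw [← pow_mul, ← pow_mul, ← pow_mul, ← pow_add]
    congr 1
    simp only [k, s]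
    ring
  have hsum := hVW.trans (mul_le_mul_of_nonneg_left hthin (Nat.cast_nonneg _))
  have h16 : (2 : ℝ) ^ t ≤ ((16 * A1 * (L + 1) : ℕ) : ℝ) := by
    rw [mul_assoc]; exact_mod_cast ht2
  have hfin := final_bound (D := d) (Nn := Y.N) (T := (2 ^ K0) ^ 3)
    (x := (((B0 + 1) * Q : ℕ) : ℝ)) (F := F) (by exact_mod_cast hQF) (Nat.cast_nonneg _)
    (pow_nonneg zero_le_two t) (pow_nonneg (inv_nonneg.2 hc.le) _) (by exact_mod_cast hck) h16
  refine hsum.trans ?_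
  rw [Nat.cast_mul, Nat.cast_pow, Nat.cast_add, Nat.cast_one]
  refine hfin.trans (le_of_eq ?_)
  push_cast
  rw [mul_pow (16 * (A1 : ℝ)) ((L : ℝ) + 1)]
  ring

/-- Every finite set has weight at most polylogarithmic in its size. -/
theorem weight_le_log (hd : 0 < d) {c : ℝ} (hc : 0 < c) :
    ∃ C : ℝ, ∃ K : ℕ, 0 ≤ C ∧ ∀ w : H → ℝ, Weight κ w c →
      ∀ U : Finset H, ∑ x ∈ U, w x ≤ C * ((Nat.log 2 U.card : ℝ) + 1) ^ K := by
  classical
  obtain ⟨C, K, hC, hb⟩ := std_weight_le κ hd hc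
  refine ⟨(κ.P.card : ℝ) * κ.P.card * C / (c * c), K, by positivity, fun w hw U => ?_⟩
  choose a ha b hb' hab using exists_pads κ
  have key : ∀ r ∈ κ.P ×ˢ κ.P, c * c * ∑ x ∈ U.filter (fun x => (a x, b x) = r), w x ≤
      C * ((Nat.log 2 U.card : ℝ) + 1) ^ K := by
    rintro ⟨p, q⟩ hr
    obtain ⟨hp, hq⟩ := Finset.mem_product.1 hr
    set V := U.filter fun x => (a x, b x) = (p, q)
    refine le_trans ?_ ((hb w hw (V.image fun x => p * x * q) ?_).trans (mul_le_mul_of_nonneg_left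
      (pow_le_pow_left₀ (by positivity) (add_le_add (Nat.cast_le.2 (Nat.log_mono_right
        (Finset.card_image_le.trans (Finset.card_filter_le _ _)))) le_rfl) _) hC))
    · rw [Finset.sum_image fun x _ y _ h => mul_left_cancel (mul_right_cancel h), Finset.mul_sum]
      refine Finset.sum_le_sum fun x _ => ?_
      calc c * c * w x = c * w x * c := by ring
        _ ≤ w (p * x) * w q := mul_le_mul ((mul_le_mul_of_nonneg_right (hw.gen p hp)
            (hw.nonneg x)).trans (hw.mul_le _ _)) (hw.gen q hq) hc.le (hw.nonneg _)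
        _ ≤ _ := hw.mul_le _ _
    · intro z hz
      obtain ⟨x, hx, rfl⟩ := Finset.mem_image.1 hz
      have h := hab x
      obtain ⟨h1, h2⟩ := Prod.mk.injEq .. ▸ (Finset.mem_filter.1 hx).2
      rwa [h1, h2] at h
  have h := Finset.sum_le_sum key
  rw [← Finset.mul_sum, Finset.sum_fiberwise_of_maps_to
    (fun x _ => Finset.mem_product.2 ⟨ha x, hb' x⟩), Finset.sum_const, nsmul_eq_mul,
    Finset.card_product, Nat.cast_mul] at h
  rw [div_mul_eq_mul_div, le_div_iff₀ (mul_pos hc hc)]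
  linarith

end Vale.Agent.P165Hyp
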