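import Vale.Agent.P165FreeProd.Main
import Vale.Agent.P165Hyp.Exit

/-!
# A nonuniqueness phase for groups acting on products of hyperbolic spaces
-/

namespace Vale.Agent.P165Hyp

open MeasureTheory ProbabilityTheory Filter Topology Vale.Agent.P165 Vale.Agent.P165FreeProd

universe u

variable {d : ℕ} {H : Type*} [Group H] [DecidableEq H] {Γ : Type u} [Group Γ] [DecidableEq Γ] (S : Finset Γ)
  [Countable Γ]

/-- Two pads form a code. -/
theorem pair_code {Y : Sys H d} (κ : Kit Y) (hd : 0 < d) {a b : H} (ha : a ∈ κ.P) (hb : b ∈ κ.P) :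
    ∀ l l' : List H, (∀ x ∈ l, x ∈ ({a, b} : Finset H)) → (∀ x ∈ l', x ∈ ({a, b} : Finset H)) →
      l.length = l'.length → l.prod = l'.prod → l = l' := by
  intro l l' hl hl' hlen he
  by_contra hne
  have mem : ∀ x ∈ ({a, b} : Finset H), x ∈ κ.P := fun x hx => by
    rcases Finset.mem_insert.1 hx with rfl | h
    exacts [ha, (Finset.mem_singleton.1 h) ▸ hb]
  have h := word_ne κ ⟨0, hd⟩ l l' (fun x hx => mem x (hl x hx)) (fun x hx => mem x (hl' x hx))
    hlen hne
  rw [he, inv_mul_cancel, ln_one] at h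
  exact lt_irrefl _ h

/-- The main theorem. -/
theorem pc_lt_pu_of_kit {Y : Sys H d} (κ : Kit Y) (hd : 0 < d) (emb : H →* Γ)
    (hinj : Function.Injective emb)
    (hfi : emb.range.FiniteIndex) (hS : Subgroup.closure (S : Set Γ) = ⊤) :
    pc (SimpleGraph.mulCayley (S : Set Γ)) < pu (SimpleGraph.mulCayley (S : Set Γ)) := by
  classical
  obtain ⟨D⟩ := exists_dec emb hinj hfi
  obtain ⟨a0, ha0, a1, ha1, h01⟩ := Finset.one_lt_card.1 (lt_of_le_of_lt hd κ.card)
  haveI : Infinite Γ := by
    haveI : Infinite H := by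
      refine Infinite.of_injective (fun k : ℕ => a0 ^ k) ?_
      intro a b hab
      by_contra hne
      rcases lt_or_gt_of_ne hne with hlt | hlt <;>
      · have he := pow_sub a0 hlt.le
        simp only at hab
        rw [hab, mul_inv_cancel] at he
        obtain ⟨r, hr⟩ := Nat.exists_eq_succ_of_ne_zero (Nat.sub_ne_zero_of_lt hlt)
        rw [hr] at he
        have h := word_long κ ⟨0, hd⟩ (a := a0) (l := List.replicate r a0) (by
          intro x hx
          rcases List.mem_cons.1 hx with rfl | hx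
          · exact ha0
          · rw [List.eq_of_mem_replicate hx]; exact ha0)
        rw [List.prod_cons, List.prod_replicate, ← pow_succ', show r + 1 = r.succ from rfl, he,
          ln_one] at h
        have := T2_le κ
        omega
    exact Infinite.of_injective emb hinj
  set G := SimpleGraph.mulCayley (S : Set Γ)
  have hconn : G.Connected := connected_cay S hS
  have hone : ∀ x : Γ, {z | (openGraph G G.edgeSet).Reachable x z} = Set.univ := fun x => by
    ext z
    have e : openGraph G G.edgeSet = G := by simp [openGraph]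
    simp [e, hconn.preconnected x z]
  have hinf1 : perc G 1 {ω | HasInfinite G ω} = 1 := by
    rw [perc, setBernoulli_one]
    exact Measure.dirac_apply_of_mem ⟨1, by rw [hone]; exact Set.infinite_univ⟩
  have huni1 : perc G 1 {ω | UniqueInfinite G ω} = 1 := by
    rw [perc, setBernoulli_one]
    refine Measure.dirac_apply_of_mem ⟨⟨1, by rw [hone]; exact Set.infinite_univ⟩, fun x y _ _ => ?_⟩
    have : y ∈ {z | (openGraph G G.edgeSet).Reachable x z} := by rw [hone]; trivial
    exact this
  have hmemS : (1 : ℝ) ∈ {t : ℝ | ∃ h : t ∈ Set.Icc (0 : ℝ) 1,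
      0 < perc G ⟨t, h⟩ {ω | HasInfinite G ω}} :=
    ⟨⟨zero_le_one, le_rfl⟩, by
      show 0 < perc G 1 {ω | HasInfinite G ω}
      rw [hinf1]
      exact one_pos⟩
  set q := pc G with hqdef
  have hq1 : q ≤ 1 := csInf_le ⟨0, by rintro t ⟨ht, -⟩; exact ht.1⟩ hmemS
  have hbelow : ∀ t : ℝ, ∀ h : t ∈ Set.Icc (0 : ℝ) 1, t < q →
      perc G ⟨t, h⟩ {ω | HasInfinite G ω} = 0 := by
    intro t h htq
    by_contra hne
    have hmem : t ∈ {t : ℝ | ∃ h : t ∈ Set.Icc (0 : ℝ) 1,
        0 < perc G ⟨t, h⟩ {ω | HasInfinite G ω}} := ⟨h, pos_iff_ne_zero.2 hne⟩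
    exact absurd (csInf_le ⟨0, by rintro s ⟨hs, -⟩; exact hs.1⟩ hmem) (not_le.2 htq)
  -- positivity
  set p0 : ℝ := 1 / (2 * ((gens S).card + 1))
  have hp0 : 0 < p0 := by positivity
  have hp01 : p0 ≤ 1 := by
    rw [div_le_one (by positivity)]
    linarith [(Nat.cast_nonneg (gens S).card : (0 : ℝ) ≤ _)]
  have hsub0 : Subcrit S p0 := by
    refine subcrit_of_phi S hp0.le hp01 (Finset.mem_singleton_self 1)
      ((phi_one_le S p0 hp0.le).trans_lt ?_)
    rw [div_mul_eq_mul_div, one_mul, div_lt_one (by positivity)]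
    linarith [(Nat.cast_nonneg (gens S).card : (0 : ℝ) ≤ _)]
  have hq0 : p0 ≤ q := by
    refine le_csInf ⟨1, hmemS⟩ ?_
    rintro t ⟨ht, hpos⟩
    by_contra hlt
    exact hpos.ne' (hasInfinite_null S ⟨t, ht⟩
      (subcrit_mono S ht.1 (not_le.1 hlt).le hp01 hsub0))
  -- below the threshold the susceptibility is finite
  have hsub : ∀ t, 0 ≤ t → t < q → Subcrit S t := by
    intro t ht htq
    set p2 := (max t (p0 / 2) + q) / 2
    have hm : max t (p0 / 2) < q := max_lt htq (by linarith)
    have h1m : max t (p0 / 2) < p2 := by simp only [p2]; linarith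
    have h2q : p2 < q := by simp only [p2]; linarith
    have h20 : 0 ≤ p2 := by linarith [le_max_right t (p0 / 2)]
    by_contra hcon
    have hphi : ∀ r ∈ Set.Icc (max t (p0 / 2)) p2, ∀ B : Finset Γ, (1 : Γ) ∈ B →
        1 ≤ phi (cnb S) B r 1 := by
      intro r hr B hB
      by_contra hlt
      have hr0 : 0 ≤ r := le_trans (ht.trans (le_max_left _ _)) hr.1
      exact hcon (subcrit_mono S ht ((le_max_left _ _).trans hr.1) (by linarith [hr.2])
        (subcrit_of_phi S hr0 (by linarith [hr.2]) hB (not_le.1 hlt)))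
    have hθ := theta_ge (G := G) (lf_cay S) (p1 := max t (p0 / 2))
      (p2 := ⟨p2, h20, by linarith⟩) (by positivity) h1m.le (by show p2 < 1; linarith) (o := 1)
      zero_le_one le_rfl hphi
    have hz := hbelow p2 ⟨h20, by linarith⟩ h2q
    have hle := hθ.trans (measure_mono (t := {ω | HasInfinite G ω}) fun ω hω => ⟨1, hω⟩)
    rw [hz, nonpos_iff_eq_zero, ENNReal.ofReal_eq_zero] at hle
    have hexp : Real.exp (1 * max t (p0 / 2) - 1 * p2) < 1 := Real.exp_lt_one_iff.2 (by linarith)
    exact absurd hle (by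
      show ¬ (1 - Real.exp (1 * max t (p0 / 2) - 1 * p2) ≤ 0)
      linarith)
  -- the threshold is below one
  obtain ⟨k1, hk1⟩ := exists_uniform_pow S hS {emb a0, emb a1}
  have htwo : ∀ t : ℝ, 0 ≤ t → t < q → 2 * t ^ k1 ≤ 1 := by
    intro t ht htq
    have h1 : t ≤ 1 := htq.le.trans hq1
    have hcode := code_le_one S ht h1 (hsub t ht htq) (({a0, a1} : Finset H).image emb)
      (image_code hinj _ (pair_code κ hd ha0 ha1))
    rw [Finset.sum_image hinj.injOn, Finset.sum_pair h01] at hcode
    have h2 := hk1 t ht h1 _ (Finset.mem_insert_self _ _)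
    have h3 := hk1 t ht h1 _ (Finset.mem_insert_of_mem (Finset.mem_singleton_self _))
    linarith
  have hqlt : q < 1 := by
    refine lt_of_le_of_ne hq1 fun hq => ?_
    have hlim : (2 : ℝ) * q ^ k1 ≤ 1 := by
      refine le_of_tendsto (((continuous_const.mul (continuous_pow k1)).tendsto q).mono_left
        (nhdsWithin_le_nhds (s := Set.Iio q))) ?_
      filter_upwards [Ico_mem_nhdsLT (hp0.trans_le hq0)] with t ht using htwo t ht.1 ht.2
    rw [hq, one_pow] at hlim
    norm_num at hlim
  -- openness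
  obtain ⟨i, hi, Hw, hH, hk⟩ := exists_kap_lt D Y S κ hinj hd hS (p0 := p0 / 2) (q := q) (by positivity)
    (by linarith) hq1 fun t ht htq => hsub t (by linarith) htq
  obtain ⟨δ, hδ, hball⟩ := Metric.eventually_nhds_iff.1
    ((continuous_kap D Y S i Hw).continuousAt.eventually (gt_mem_nhds hk))
  refine lt_of_lt_of_le (lt_min (show q < q + δ by linarith) hqlt) (le_csInf ⟨1, ⟨zero_le_one, le_rfl⟩,
    huni1⟩ ?_)
  rintro t ⟨ht, hu⟩
  by_contra hlt
  obtain ⟨htδ, -⟩ := lt_min_iff.1 (not_le.1 hlt)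
  rcases lt_or_ge t q with htq | htq
  · have h0 := hbelow t ht htq
    have := (measure_mono (μ := perc G ⟨t, ht⟩) (s := {ω | UniqueInfinite G ω})
      (t := {ω | HasInfinite G ω}) fun ω hω => hω.1).trans h0.le
    rw [hu] at this
    simp at this
  · have hk' : D.kap Y S i Hw t < 1 := hball (by
      rw [Real.dist_eq, abs_of_nonneg (sub_nonneg.2 htq)]
      linarith)
    exact not_unique_of_sq S ⟨t, ht⟩ (fun F => sq_le_of_kap D Y S hinj ht.1 ht.2 hi hH hk' F) hu

end Vale.Agent.P165Hyp
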