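import Vale.Agent.P165Hyp.Kit

/-!
# Words in the pads
-/

namespace Vale.Agent.P165Hyp

variable {H : Type*} [Group H] {d : ℕ} {Y : Sys H d} (κ : Kit Y) (i : Fin d)

theorem hc1 : κ.T2 + Y.δ < κ.c1 - κ.T2 - Y.δ := by
  have := c_ineq κ
  show κ.T2 + Y.δ < κ.c2
  omega

theorem hc2 : κ.T2 + Y.δ < κ.c2 - κ.T2 - Y.δ := by
  have := c_ineq κ
  show κ.T2 + Y.δ < κ.c3
  omega

theorem T2_le : 0 ≤ κ.T2 ∧ 3 * κ.T2 + 3 * (Y.δ : ℤ) < (κ.L : ℤ) := by
  have := κ.big
  simp only [Kit.T2]
  omega

theorem ln_word_le (Mx : ℕ) (hMx : ∀ a ∈ κ.P, Y.ln i a ≤ Mx) :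
    ∀ l : List H, (∀ a ∈ l, a ∈ κ.P) → Y.ln i l.prod ≤ l.length * Mx
  | [], _ => by simp [ln_one]
  | a :: l, h => by
    rw [List.prod_cons, List.length_cons, Nat.add_mul, one_mul, add_comm]
    exact (ln_mul_le Y i _ _).trans (Nat.add_le_add (hMx a (h a (by simp)))
      (ln_word_le Mx hMx l fun b hb => h b (List.mem_cons_of_mem _ hb)))

theorem word_long {a : H} {l : List H} (hl : ∀ b ∈ a :: l, b ∈ κ.P) :
    (κ.L : ℤ) - κ.T2 ≤ Y.ln i (a :: l).prod := by
  have h := (head_prod κ (hc1 κ) (u := a) (rest := l) (fun x hx => std_pad κ (hl x hx)) i).2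
  have := κ.long a (hl a (by simp)) i
  rw [List.prod_cons]
  omega

/-- What is known about a straight element continued by pads. -/
theorem ext_facts {z p : H} (hz : κ.Std κ.c1 z) (hp : p ∈ κ.P) {l : List H} (hne : l ≠ [])
    (hl : ∀ a ∈ l, a ∈ κ.P) :
    2 * (Y.ln i z : ℤ) - κ.T2 ≤ Y.gh i z (z * p * l.prod) ∧
      2 * (Y.ln i (z * p) : ℤ) - κ.T2 ≤ Y.gh i (z * p) (z * p * l.prod) ∧
      2 * (Y.ln i z : ℤ) - κ.T2 ≤ Y.gh i z (z * p) ∧
      (Y.ln i z : ℤ) + κ.L - κ.T2 ≤ Y.ln i (z * p) ∧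
      Y.ln i (z * p) ≤ Y.ln i (z * p * l.prod) ∧ Y.ln i z ≤ Y.ln i (z * p * l.prod) := by
  have hT := T2_le κ
  have h1 := (head_prod κ (hc1 κ) (u := z) (rest := p :: l) (by
    intro x hx
    rcases List.mem_cons.1 hx with rfl | hx
    · exact hz
    rcases List.mem_cons.1 hx with rfl | hx
    · exact std_pad κ hp
    · exact std_pad κ (hl x hx)) i)
  have h2 := (head_prod κ (hc1 κ) (u := z) (rest := [p]) (by
    intro x hx
    rcases List.mem_cons.1 hx with rfl | hx
    · exact hz
    · rw [List.mem_singleton.1 hx]; exact std_pad κ hp) i)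
  have hzp : κ.Std κ.c2 (z * p) := by
    have := std_prod κ (hc1 κ) [z, p] (by simp) (by simp [hz, std_pad κ hp])
    simpa [Kit.c2] using this
  have h3 := (head_prod κ (hc2 κ) (u := z * p) (rest := l) (by
    intro x hx
    rcases List.mem_cons.1 hx with rfl | hx
    · exact hzp
    · exact st_mono κ (c_ineq κ).2.2.1 (std_pad κ (hl x hx))) i)
  obtain ⟨a, l', rfl⟩ := List.exists_cons_of_ne_nil hne
  have h4 := word_long κ i (a := a) (l := l') hl
  have h5 := κ.long p hp i
  rw [List.prod_cons (a := p), ← mul_assoc] at h1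
  rw [List.prod_singleton] at h2
  refine ⟨h1.1, h3.1, h2.1, ?_, ?_, ?_⟩ <;> omega

theorem ext_std {z p : H} (hz : κ.Std κ.c1 z) (hp : p ∈ κ.P) {l : List H}
    (hl : ∀ a ∈ l, a ∈ κ.P) : κ.Std κ.c2 (z * p * l.prod) := by
  have := std_prod κ (hc1 κ) (z :: p :: l) (by simp) (by
    intro x hx
    rcases List.mem_cons.1 hx with rfl | hx
    · exact hz
    rcases List.mem_cons.1 hx with rfl | hx
    · exact std_pad κ hp
    · exact std_pad κ (hl x hx))
  rw [List.prod_cons, List.prod_cons, ← mul_assoc] at this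
  exact this

/-- Different words of one length move the base point differently in every factor. -/
theorem word_ne : ∀ l l' : List H, (∀ a ∈ l, a ∈ κ.P) → (∀ a ∈ l', a ∈ κ.P) →
    l.length = l'.length → l ≠ l' → 0 < Y.ln i (l.prod⁻¹ * l'.prod)
  | [], [], _, _, _, h => absurd rfl h
  | [], _ :: _, _, _, h, _ => by simp at h
  | _ :: _, [], _, _, h, _ => by simp at h
  | a :: l, b :: l', hl, hl', hlen, hne => by
    by_cases hab : a = b
    · subst hab
      rw [List.prod_cons, List.prod_cons, show (a * l.prod)⁻¹ * (a * l'.prod) =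
        l.prod⁻¹ * l'.prod by group]
      exact word_ne l l' (fun x hx => hl x (List.mem_cons_of_mem _ hx))
        (fun x hx => hl' x (List.mem_cons_of_mem _ hx)) (by simpa using hlen)
        fun h => hne (by rw [h])
    · have hT := T2_le κ
      have h1 := (head_prod κ (hc1 κ) (u := a) (rest := l) (fun x hx => std_pad κ (hl x hx)) i).1
      have h2 := (head_prod κ (hc1 κ) (u := b) (rest := l') (fun x hx => std_pad κ (hl' x hx)) i).1
      have h3 := word_long κ i hl
      have h4 := word_long κ i hl'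
      have h5 := gh_four Y i a (a :: l).prod b
      have h6 := gh_four Y i (a :: l).prod (b :: l').prod b
      have h7 := (κ.sep a (hl a (by simp)) b (hl' b (by simp)) hab i).1
      have h8 := gh_eq Y i (a :: l).prod (b :: l').prod
      have h9 := κ.long a (hl a (by simp)) i
      have h10 := κ.long b (hl' b (by simp)) i
      rw [← List.prod_cons] at h1 h2
      rw [gh_comm Y i (b :: l').prod b] at h6
      have hbig := κ.big
      simp only [Kit.T2] at *
      simp only [min_def] at h5 h6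
      split_ifs at h5 h6 <;> omega

end Vale.Agent.P165Hyp
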